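import Crest.Agent.N218.Pm.Defs

/-! Row 218, RED (helper7): from a gradient-like map with one hyperbolic fixed point to `Data`. -/

set_option autoImplicit false
set_option linter.unusedVariables false
open Set Topology
open scoped InnerProductSpace

noncomputable section

namespace Crest.Agent.N218.Rd
open Pm

section real
variable {X E₁ E₂ : Type} [TopologicalSpace X] [NormedAddCommGroup E₁] [NormedSpace ℝ E₁]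
  [NormedAddCommGroup E₂] [NormedSpace ℝ E₂]

/-- no twisted antiperiodic sequence of even half period -/
def Nn (L : E₁ →L[ℝ] E₁) : Prop := ∀ (c : ℝ) (z : ℕ → E₁) (j : ℕ),
  (∀ i, z (i + 1) = c • L (z i)) → z (2 * j) = -z 0 → z 0 = 0

/-- a path of hyperbolic pointed partial maps that starts at the linear map -/
structure HP (p C : X → E₁ →L[ℝ] E₁) (μ c κ R₀ M : ℝ) (O : Set ((X × ℝ) × E₁))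
    (h : (X × ℝ) × E₁ → E₁) : Prop where
  op : IsOpen O
  ct : ContinuousOn h O
  cp : ∀ R : ℝ, IsCompact {w ∈ O | |w.1.2| ≤ R ∧ ‖h w‖ ≤ R ∧ ‖w.2‖ ≤ R}
  bd : ∀ w ∈ O, ‖h w - p w.1.1 (h w)‖ ≤ M + c * ‖w.2 - p w.1.1 w.2‖
  ex : ∀ w ∈ O, R₀ ≤ ‖p w.1.1 w.2‖ → (1 + κ) * ‖p w.1.1 w.2‖ ≤ ‖p w.1.1 (h w)‖
  ln : ∀ x s y, s ≤ 0 → ((x, s), y) ∈ O ∧ h ((x, s), y) = C x y + μ • p x y

variable (X E₁ E₂) in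
/-- `Data` over real spaces -/
structure RD where
  p₁ : X → E₁ →L[ℝ] E₁
  p₂ : X → E₂ →L[ℝ] E₂
  C : X → E₁ →L[ℝ] E₁
  μ : ℝ
  u : X × E₂ → E₁
  Ov : Set (X × E₁)
  v : X × E₁ → E₂
  O₁ : Set ((X × ℝ) × E₁)
  h₁ : (X × ℝ) × E₁ → E₁
  O₂ : Set ((X × ℝ) × E₂)
  h₂ : (X × ℝ) × E₂ → E₂

namespace RD
variable (D : RD X E₁ E₂)

/-- the linear clauses -/
structure OkL (c κ : ℝ) : Prop where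
  hμ : 1 < D.μ
  hc : c < 1
  hκ : 0 < κ
  Cc : Continuous D.C
  Cn : ∀ x, ‖D.C x‖ ≤ c
  Cp : ∀ x y, D.p₁ x (D.C x y) = 0 ∧ D.C x (D.p₁ x y) = 0

/-- the clauses on `u`, `v` -/
structure OkU (κ R₀ M : ℝ) : Prop where
  uc : Continuous D.u
  up : ∀ x z, D.u (x, D.p₂ x z) = D.u (x, z)
  ub : ∀ x z, ‖D.u (x, z) - D.p₁ x (D.u (x, z))‖ ≤ M
  ux : ∀ x z, R₀ ≤ ‖D.p₂ x z‖ → (1 + κ) * ‖D.p₂ x z‖ ≤ ‖D.p₁ x (D.u (x, z))‖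
  vo : IsOpen D.Ov
  vc : ContinuousOn D.v D.Ov
  vp : ∀ w ∈ D.Ov, D.p₂ w.1 (D.v w) = D.v w
  vk : ∀ R : ℝ, IsCompact {w ∈ D.Ov | ‖D.v w‖ ≤ R ∧ ‖w.2‖ ≤ R}
  vb : ∀ w ∈ D.Ov, ‖D.p₁ w.1 w.2‖ ≤ R₀
  ln : ∃ ρ > 0, ∃ Λ : ℝ, ∀ x, ∃ (U : E₂ →L[ℝ] E₁) (W : E₁ →L[ℝ] E₂), Nn (U.comp W) ∧
    Nn (W.comp U) ∧ (∀ z, ‖U z‖ ≤ Λ * ‖z‖) ∧ (∀ y, ‖W y‖ ≤ Λ * ‖y‖) ∧
    (∀ z, ‖z‖ < ρ → D.u (x, z) = U z) ∧ ∀ y, ‖y‖ < ρ → (x, y) ∈ D.Ov ∧ D.v (x, y) = W y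

/-- the clauses on `h₁`; it runs through `(O, ph)` on `s ≤ 1/4` -/
structure Ok1 (c κ R₀ M : ℝ) (O : Set ((X × ℝ) × E₁)) (ph : (X × ℝ) × E₁ → E₁) : Prop where
  hp : HP D.p₁ D.C D.μ c κ R₀ M D.O₁ D.h₁
  r₁ : ∀ x s y, 1 ≤ s → (((x, s), y) ∈ D.O₁ ↔ (x, y) ∈ D.Ov) ∧
    ((x, y) ∈ D.Ov → D.h₁ ((x, s), y) = D.u (x, D.v (x, y)))
  hd : ∀ x s y, s ≤ 1 / 4 → (((x, s), y) ∈ D.O₁ ↔ ((x, 4 * s), y) ∈ O) ∧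
    D.h₁ ((x, s), y) = ph ((x, 4 * s), y)
  cs : ∀ x s y, 1 ≤ s → (((x, s), y) ∈ O ↔ ((x, 1), y) ∈ O) ∧ ph ((x, s), y) = ph ((x, 1), y)

/-- the tail of `h₁` has only the zero orbit and is linear near it -/
structure Tl1 : Prop where
  z : ∀ x s, 1 / 4 ≤ s → ∀ (k : ℕ) (y : V k E₁), (∀ i, ((x, s), y i) ∈ D.O₁) →
    (∀ i, y i = D.h₁ ((x, s), y (i - 1))) → y = 0
  ln : ∃ ρ > 0, ∀ x s, 1 / 4 ≤ s → ∃ L, Nn L ∧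
    ∀ y, ‖y‖ < ρ → ((x, s), y) ∈ D.O₁ ∧ D.h₁ ((x, s), y) = L y

/-- the clauses on `h₂` -/
structure Ok2 (κ R₀ : ℝ) : Prop where
  o₂ : IsOpen D.O₂
  c₂ : ContinuousOn D.h₂ D.O₂
  q₂ : ∀ x s z, (((x, s), z) ∈ D.O₂ ↔ ((x, s), D.p₂ x z) ∈ D.O₂) ∧
    D.h₂ ((x, s), D.p₂ x z) = D.h₂ ((x, s), z) ∧ D.p₂ x (D.h₂ ((x, s), z)) = D.h₂ ((x, s), z)
  k₂ : ∀ R : ℝ, IsCompact {w ∈ D.O₂ | |w.1.2| ≤ R ∧ ‖D.h₂ w‖ ≤ R ∧ ‖w.2‖ ≤ R}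
  x₂ : ∀ w ∈ D.O₂, R₀ ≤ ‖D.p₂ w.1.1 w.2‖ → (1 + κ) * ‖D.p₂ w.1.1 w.2‖ ≤ ‖D.h₂ w‖
  l₂ : ∀ x s z, s ≤ 0 → (((x, s), z) ∈ D.O₂ ↔ (x, D.u (x, z)) ∈ D.Ov) ∧
    ((x, D.u (x, z)) ∈ D.Ov → D.h₂ ((x, s), z) = D.v (x, D.u (x, z)))
  r₂ : ∀ x s z, 1 ≤ s → ((x, s), z) ∈ D.O₂ ∧ D.h₂ ((x, s), z) = D.μ • D.p₂ x z
  z : ∀ x s (k : ℕ) (y : V k E₂), (∀ i, ((x, s), y i) ∈ D.O₂) →
    (∀ i, y i = D.h₂ ((x, s), y (i - 1))) → y = 0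
  ln : ∃ ρ > 0, ∀ x s, ∃ L, Nn L ∧ ∀ y, ‖y‖ < ρ → ((x, s), y) ∈ D.O₂ ∧ D.h₂ ((x, s), y) = L y

/-- all clauses -/
structure Ok (c κ R₀ M : ℝ) (O : Set ((X × ℝ) × E₁)) (ph : (X × ℝ) × E₁ → E₁) : Prop where
  l : D.OkL c κ
  u : D.OkU κ R₀ M
  a : D.Ok1 c κ R₀ M O ph
  t : D.Tl1
  b : D.Ok2 κ R₀
end RD
end real

/-- forget the complex structure -/
def toRD {X E₁ E₂ : Type} [NormedAddCommGroup E₁] [InnerProductSpace ℂ E₁]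
    [NormedAddCommGroup E₂] [InnerProductSpace ℂ E₂] (D : Data X E₁ E₂) : RD X E₁ E₂ :=
  ⟨fun x => (D.π₁ x).restrictScalars ℝ, fun x => (D.π₂ x).restrictScalars ℝ, D.C, D.μ, D.u, D.Ov,
    D.v, D.O₁, D.h₁, D.O₂, D.h₂⟩

theorem ok_of {X E₁ E₂ : Type} [TopologicalSpace X] [NormedAddCommGroup E₁]
    [InnerProductSpace ℂ E₁] [NormedAddCommGroup E₂] [InnerProductSpace ℂ E₂] {D : Data X E₁ E₂}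
    {c κ R₀ M : ℝ} {O ph : _} (h1 : IsPr D.π₁) (h2 : IsPr D.π₂) (h : (toRD D).Ok c κ R₀ M O ph) :
    D.Ok c κ R₀ M :=
  ⟨h1, h2, h.l.hμ, h.l.hc, h.l.hκ, h.l.Cc, h.l.Cn, h.l.Cp, h.u.uc, h.u.up, h.u.ub, h.u.ux, h.u.vo,
    h.u.vc, h.u.vp, h.u.vk, h.u.vb, h.a.hp.op, h.a.hp.ct, h.a.hp.cp, h.a.hp.bd, h.a.hp.ex,
    h.a.hp.ln, h.a.r₁, h.b.o₂, h.b.c₂, h.b.q₂, h.b.k₂, h.b.x₂, h.b.l₂, h.b.r₂⟩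

/-! ## the input -/

/-- a path `ph` ending at `f`, a Lyapunov function `g` on `Dm`, a homotopy `j` from the identity
to `f`, the Hessian `H` at the fixed point `0`, a partial isometry `ι` onto its negative space -/
structure Rg (X E₁ E₂ : Type) [NormedAddCommGroup E₁] [InnerProductSpace ℝ E₁]
    [NormedAddCommGroup E₂] [InnerProductSpace ℝ E₂] where
  p₁ : X → E₁ →L[ℝ] E₁
  C : X → E₁ →L[ℝ] E₁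
  μ : ℝ
  O : Set ((X × ℝ) × E₁)
  ph : (X × ℝ) × E₁ → E₁
  f : X × E₁ → E₁
  Dm : Set (X × E₁)
  j : ℝ × X × E₁ → E₁
  g : X × E₁ → ℝ
  H : X → E₁ →L[ℝ] E₁
  ι : X → E₂ →L[ℝ] E₁
  ι' : X → E₁ →L[ℝ] E₂
  a : ℝ
  r : ℝ

/-- `0` above `-η/2`, `1` below `-η` -/
def χ (η t : ℝ) : ℝ := cl (-2 * t / η - 1)
/-- the blow-up factor -/
def th (η β t : ℝ) : ℝ := (1 - β * χ η t)⁻¹

namespace Rg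
variable {X E₁ E₂ : Type} [TopologicalSpace X] [NormedAddCommGroup E₁] [InnerProductSpace ℝ E₁]
  [NormedAddCommGroup E₂] [InnerProductSpace ℝ E₂] (G : Rg X E₁ E₂)

/-- the axioms -/
structure Ok (c κ R₀ M : ℝ) : Prop where
  pc : Continuous G.p₁
  pi : ∀ x y, G.p₁ x (G.p₁ x y) = G.p₁ x y
  pn : ∀ x y, ‖G.p₁ x y‖ ≤ ‖y‖
  hμ : 1 < G.μ
  hc : c < 1
  hκ : 0 < κ
  Cc : Continuous G.C
  Cn : ∀ x, ‖G.C x‖ ≤ c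
  Cp : ∀ x y, G.p₁ x (G.C x y) = 0 ∧ G.C x (G.p₁ x y) = 0
  hp : HP G.p₁ G.C G.μ c κ R₀ M G.O G.ph
  en : ∀ x s y, 1 ≤ s → ((x, s), y) ∈ G.O ∧ G.ph ((x, s), y) = G.f (x, y)
  fc : Continuous G.f
  dc : IsClosed G.Dm
  fD : ∀ w, (w.1, G.f w) ∈ G.Dm
  db : ∀ w ∈ G.Dm, ‖w.2 - G.p₁ w.1 w.2‖ ≤ M
  jc : Continuous G.j
  j0 : ∀ w, G.j (0, w) = w.2
  j1 : ∀ w ∈ G.Dm, G.j (1, w) = G.f w
  jD : ∀ s ∈ Icc (0 : ℝ) 1, ∀ w ∈ G.Dm, (w.1, G.j (s, w)) ∈ G.Dm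
  jg : ∀ s ∈ Icc (0 : ℝ) 1, ∀ w ∈ G.Dm, G.g (w.1, G.j (s, w)) ≤ G.g w
  jx : ∀ s ∈ Icc (0 : ℝ) 1, ∀ w ∈ G.Dm, R₀ ≤ ‖G.p₁ w.1 w.2‖ →
    ‖G.p₁ w.1 w.2‖ ≤ ‖G.p₁ w.1 (G.j (s, w))‖
  gc : Continuous G.g
  gf : ∀ w ∈ G.Dm, w.2 ≠ 0 → G.g (w.1, G.f w) < G.g w
  gk : ∀ b : ℝ, IsCompact {w ∈ G.Dm | -b ≤ G.g w}
  ha : 0 < G.a
  hr : 0 < G.r
  Hc : Continuous G.H
  Hs : ∀ x y y', ⟪G.H x y, y'⟫_ℝ = ⟪y, G.H x y'⟫_ℝ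
  Hn : ∀ x y, ‖G.H x y‖ ≤ 1 / 2 * ‖y‖
  ic : Continuous G.ι
  ic' : Continuous G.ι'
  ad : ∀ x z y, ⟪G.ι x z, y⟫_ℝ = ⟪z, G.ι' x y⟫_ℝ
  iii : ∀ x z, G.ι x (G.ι' x (G.ι x z)) = G.ι x z
  HP : ∀ x y, G.H x (G.ι x (G.ι' x y)) = G.ι x (G.ι' x (G.H x y))
  Hm : ∀ x z, ⟪G.H x (G.ι x z), G.ι x z⟫_ℝ ≤ -(G.a * ‖G.ι x z‖ ^ 2)
  Hp : ∀ x y, G.ι' x y = 0 → 0 ≤ ⟪G.H x y, y⟫_ℝ
  ln : ∀ x y, ‖y‖ ≤ 2 * G.r → (x, y) ∈ G.Dm ∧ G.g (x, y) = 1 / 2 * ⟪G.H x y, y⟫_ℝ ∧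
    ∀ s ∈ Icc (0 : ℝ) 1, G.j (s, x, y) = y - s • G.H x y

/-- iterates -/
def fi (n : ℕ) (w : X × E₁) : E₁ := (fun y => G.f (w.1, y))^[n] w.2

/-- the constants -/
structure Cst (R₀ : ℝ) (T T' : ℕ) (η R₁ : ℝ) : Prop where
  η0 : 0 < η
  ηa : η ≤ G.a * G.r ^ 2 / 2
  R0 : R₀ ≤ R₁
  Rr : 2 * G.r ≤ R₁
  R1 : 1 ≤ R₁
  rg : ∀ w ∈ G.Dm, R₁ ≤ ‖G.p₁ w.1 w.2‖ → G.g w ≤ -η
  di : ∀ w ∈ G.Dm, ‖G.fi T w‖ < G.r ∨ G.g (w.1, G.fi T w) ≤ -η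
  es : ∀ w ∈ G.Dm, G.g w ≤ -η / 2 → R₁ ≤ ‖G.p₁ w.1 (G.fi T' w)‖

/-- the path from the identity (`t ≤ 0`) to the `n`-th iterate (`n ≤ t`) -/
def it (t : ℝ) (w : X × E₁) : ℕ → E₁
  | 0 => w.2
  | n + 1 => G.j (cl (t - n), w.1, it t w n)

/-- scale the unstable part -/
def S (x : X) (l : ℝ) (y : E₁) : E₁ := y + (l - 1) • G.p₁ x y
/-- the projection to the negative space -/
def P (x : X) : E₁ →L[ℝ] E₁ := (G.ι x).comp (G.ι' x)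
/-- the radial factor -/
def mx (y : E₁) : ℝ := max 1 (‖y‖ / G.r)
/-- the quadratic form -/
def q (x : X) (y : E₁) : ℝ := 1 / 2 * ⟪G.H x y, y⟫_ℝ
/-- the linear map -/
def A (x : X) : E₁ →L[ℝ] E₁ := 1 - G.H x

variable (T T' : ℕ) (η : ℝ)
/-- the long iterate -/
def F (w : X × E₁) : E₁ := G.fi T (w.1, G.f w)
/-- first stage of `h₁` -/
def Yt (w : (X × ℝ) × E₁) : E₁ :=
  G.it ((T + T') * cl (4 * w.1.2 - 1)) (w.1.1, G.ph ((w.1.1, 4 * w.1.2), w.2)) T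
/-- the blow-up factor of `h₁` -/
def θ (w : (X × ℝ) × E₁) : ℝ := th η (cl (4 * w.1.2 - 2)) (G.g (w.1.1, G.Yt T T' w))
/-- the radial factor of `h₁` -/
def m (w : (X × ℝ) × E₁) : ℝ := G.mx (G.θ T T' η w • G.P w.1.1 (G.Yt T T' w))
/-- second stage of `h₁` -/
def Wt (w : (X × ℝ) × E₁) : E₁ :=
  G.Yt T T' w - cl (4 * w.1.2 - 3) • (G.Yt T T' w - G.P w.1.1 (G.Yt T T' w)) +
    (cl (4 * w.1.2 - 3) * (G.θ T T' η w / G.m T T' η w - 1)) • G.P w.1.1 (G.Yt T T' w)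
/-- the value of the quadratic form that governs `h₂` -/
def q₂ (w : (X × ℝ) × E₂) : ℝ := G.q w.1.1 ((G.A w.1.1 ^ (T' + 1 + T)) (G.ι w.1.1 w.2))

/-- the data -/
def rd : RD X E₁ E₂ where
  p₁ := G.p₁
  p₂ := fun x => (G.ι' x).comp (G.ι x)
  C := G.C
  μ := G.μ
  u := fun w => G.S w.1 (G.mx (G.ι w.1 w.2))
    (G.fi T' (w.1, (G.mx (G.ι w.1 w.2))⁻¹ • G.ι w.1 w.2))
  Ov := {w | -η < G.g (w.1, G.F T w)}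
  v := fun w => th η 1 (G.g (w.1, G.F T w)) • G.ι' w.1 (G.F T w)
  O₁ := {w | ((w.1.1, 4 * w.1.2), w.2) ∈ G.O ∧
    cl (4 * w.1.2 - 2) * χ η (G.g (w.1.1, G.Yt T T' w)) < 1}
  h₁ := fun w => G.S w.1.1
    ((1 - cl (4 * w.1.2 - 3)) * G.θ T T' η w + cl (4 * w.1.2 - 3) * G.m T T' η w)
    (G.it ((T + T') * cl (4 * w.1.2 - 1) - T) (w.1.1, G.Wt T T' η w) T')
  O₂ := {w | (1 - cl w.1.2) * χ η (G.q₂ T T' w) < 1}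
  h₂ := fun w => th η (1 - cl w.1.2) (G.q₂ T T' w) •
    ((1 - cl w.1.2) • G.ι' w.1.1 ((G.A w.1.1 ^ (T' + 1 + T)) (G.ι w.1.1 w.2)) +
      (cl w.1.2 * G.μ) • G.ι' w.1.1 (G.ι w.1.1 w.2))

/-- the expansion constant of the data -/
def κ' (κ : ℝ) : ℝ := min κ (min 1 (min G.a (G.μ - 1)))
end Rg

/-! ## the leaves -/

/-- a statement about all inputs -/
def All (Q : ∀ {X E₁ E₂ : Type} [TopologicalSpace X] [NormedAddCommGroup E₁]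
    [InnerProductSpace ℝ E₁] [NormedAddCommGroup E₂] [InnerProductSpace ℝ E₂],
    Rg X E₁ E₂ → ℝ → ℝ → ℝ → ℝ → Prop) : Prop :=
  ∀ (X E₁ E₂ : Type) [TopologicalSpace X] [CompactSpace X] [T2Space X] [NormedAddCommGroup E₁]
    [InnerProductSpace ℝ E₁] [FiniteDimensional ℝ E₁] [NormedAddCommGroup E₂]
    [InnerProductSpace ℝ E₂] [FiniteDimensional ℝ E₂] (G : Rg X E₁ E₂) (c κ R₀ M : ℝ),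
    G.Ok c κ R₀ M → Q G c κ R₀ M

def DICH : Prop := All fun G _ _ R₀ _ => ∃ T T' η R₁, G.Cst R₀ T T' η R₁
def UV : Prop := All fun G _ κ R₀ M => ∀ T T' η R₁, G.Cst R₀ T T' η R₁ →
  (G.rd T T' η).OkU (G.κ' κ) R₁ M
def H1A : Prop := All fun G c κ R₀ M => ∀ T T' η R₁, G.Cst R₀ T T' η R₁ →
  (G.rd T T' η).Ok1 c (G.κ' κ) R₁ M G.O G.ph
def H1B : Prop := All fun G c κ R₀ M => ∀ T T' η R₁, G.Cst R₀ T T' η R₁ →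
  (G.rd T T' η).Ok1 c (G.κ' κ) R₁ M G.O G.ph → (G.rd T T' η).Tl1
def H2 : Prop := All fun G _ κ R₀ _ => ∀ T T' η R₁, G.Cst R₀ T T' η R₁ →
  (G.rd T T' η).Ok2 (G.κ' κ) R₁
/-- the dynamical half -/
def DYN : Prop := All fun G c _ _ M => ∃ T T' η κ R₁, (G.rd T T' η).Ok c κ R₁ M G.O G.ph

theorem dyn (h0 : DICH) (h1 : UV) (h2 : H1A) (h3 : H1B) (h4 : H2) : DYN := by
  intro X E₁ E₂ _ _ _ _ _ _ _ _ _ G c κ R₀ M h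
  obtain ⟨T, T', η, R₁, k⟩ := h0 X E₁ E₂ G c κ R₀ M h
  have a := h2 X E₁ E₂ G c κ R₀ M h T T' η R₁ k
  exact ⟨T, T', η, G.κ' κ, R₁, ⟨h.hμ, h.hc, lt_min h.hκ (lt_min one_pos (lt_min h.ha
    (sub_pos.2 h.hμ))), h.Cc, h.Cn, h.Cp⟩, h1 X E₁ E₂ G c κ R₀ M h T T' η R₁ k, a,
    h3 X E₁ E₂ G c κ R₀ M h T T' η R₁ k a, h4 X E₁ E₂ G c κ R₀ M h T T' η R₁ k⟩

/-- the formal half: the tail of the coupled path has no free zero -/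
def TAIL : Prop :=
  ∀ (X : Type) [TopologicalSpace X] [CompactSpace X] [T2Space X] (A : Type) [AddCommGroup A]
    (T : Th X A) (E₁ E₂ : Type) [NormedAddCommGroup E₁] [InnerProductSpace ℂ E₁]
    [FiniteDimensional ℂ E₁] [NormedAddCommGroup E₂] [InnerProductSpace ℂ E₂]
    [FiniteDimensional ℂ E₂] (D : Data X E₁ E₂) (c κ R₀ M : ℝ) (O ph : _) (k : ℕ),
    IsPr D.π₁ → IsPr D.π₂ → (toRD D).Ok c κ R₀ M O ph → 16 ≤ k →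
    ∃ δ₀ > 0, ∀ δ, 0 < δ → δ < δ₀ → ((Psi k O ph).F (tau δ)).Ok ∧
      Pe (T.pa k (sp (E₁ × E₂)) ((D.Y k).F (tau δ))) (T.pa k (sp E₁) ((Psi k O ph).F (tau δ)))

/-- the same for real data with complex coordinates -/
def TRS : Prop :=
  ∀ (X : Type) [TopologicalSpace X] [CompactSpace X] [T2Space X] (A : Type) [AddCommGroup A]
    (T : Th X A) (E₁ E₂ : Type) [NormedAddCommGroup E₁] [NormedSpace ℝ E₁]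
    [FiniteDimensional ℝ E₁] [NormedAddCommGroup E₂] [NormedSpace ℝ E₂] [FiniteDimensional ℝ E₂]
    (R : RD X E₁ E₂) (c κ R₀ M : ℝ) (O ph : _) (F₁ F₂ : Type) [NormedAddCommGroup F₁]
    [InnerProductSpace ℂ F₁] [FiniteDimensional ℂ F₁] [NormedAddCommGroup F₂]
    [InnerProductSpace ℂ F₂] [FiniteDimensional ℂ F₂] (e₁ : F₁ ≃ₗᵢ[ℝ] E₁) (e₂ : F₂ ≃ₗᵢ[ℝ] E₂)
    (π₁ : X → F₁ →L[ℂ] F₁) (π₂ : X → F₂ →L[ℂ] F₂) (k : ℕ), R.Ok c κ R₀ M O ph → IsPr π₁ →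
    IsPr π₂ → (∀ x y, e₁ (π₁ x y) = R.p₁ x (e₁ y)) → (∀ x z, e₂ (π₂ x z) = R.p₂ x (e₂ z)) →
    16 ≤ k → ∃ D : Data X F₁ F₂, D.Ok c κ R₀ M ∧ D.π₁ = π₁ ∧ D.π₂ = π₂ ∧
      ∃ δ₀ > 0, ∀ δ, 0 < δ → δ < δ₀ → ((Psi k O ph).F (tau δ)).Ok ∧
        Pe (T.pa k (sp (F₁ × F₂)) ((D.Y k).F (tau δ))) (T.pa k (sp E₁) ((Psi k O ph).F (tau δ)))

/-- **RED** -/
def RED : Prop := All fun {X E₁ E₂} _ _ _ _ _ G _ _ _ _ =>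
  ∀ [FiniteDimensional ℝ E₁] (A : Type) [AddCommGroup A] (T : Th X A) (F₁ F₂ : Type)
    [NormedAddCommGroup F₁] [InnerProductSpace ℂ F₁] [FiniteDimensional ℂ F₁]
    [NormedAddCommGroup F₂] [InnerProductSpace ℂ F₂] [FiniteDimensional ℂ F₂]
    (e₁ : F₁ ≃ₗᵢ[ℝ] E₁) (e₂ : F₂ ≃ₗᵢ[ℝ] E₂) (π₁ : X → F₁ →L[ℂ] F₁) (π₂ : X → F₂ →L[ℂ] F₂) (k : ℕ),
    IsPr π₁ → IsPr π₂ → (∀ x y, e₁ (π₁ x y) = G.p₁ x (e₁ y)) →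
    (∀ x z, e₂ (π₂ x z) = G.ι' x (G.ι x (e₂ z))) → 16 ≤ k →
    ∃ (D : Data X F₁ F₂) (c κ R₀ M : ℝ), D.Ok c κ R₀ M ∧ D.π₁ = π₁ ∧ D.π₂ = π₂ ∧
      ∃ δ₀ > 0, ∀ δ, 0 < δ → δ < δ₀ → ((Psi k G.O G.ph).F (tau δ)).Ok ∧
        Pe (T.pa k (sp (F₁ × F₂)) ((D.Y k).F (tau δ)))
          (T.pa k (sp E₁) ((Psi k G.O G.ph).F (tau δ)))

theorem red (h1 : DYN) (h2 : TRS) : RED := by
  intro X E₁ E₂ _ _ _ _ _ _ _ _ _ G c κ R₀ M h _ A _ T F₁ F₂ _ _ _ _ _ _ e₁ e₂ π₁ π₂ k a b d e hk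
  obtain ⟨n, n', η, κ', R₁, o⟩ := h1 X E₁ E₂ G c κ R₀ M h
  obtain ⟨D, u⟩ := h2 X A T E₁ E₂ _ c κ' R₁ M _ _ F₁ F₂ e₁ e₂ π₁ π₂ k o a b d e hk
  exact ⟨D, c, κ', R₁, M, u⟩

end Crest.Agent.N218.Rd
end
private theorem rz_cd0e93e6f3 : type_of% @_root_.Crest.Agent.N218.Rd.Rg.it.eq_def := @_root_.Crest.Agent.N218.Rd.Rg.it.eq_def -- L217
private theorem rz_df62ea0be3 : type_of% @_root_.Crest.Agent.N218.Rd.Rg.it.eq_1 := @_root_.Crest.Agent.N218.Rd.Rg.it.eq_1 -- L217
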