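import Crest.Agent.N218.En.Defs
import Crest.Agent.N218.Sk.Stb
import Crest.Agent.N218.C.Toe
import Crest.Agent.N218.D7.St
import Crest.Agent.N218.D7.Hd
import Crest.Agent.N218.K.Col
import Crest.Agent.N218.K.Ln
import Crest.Agent.N218.Rd.Defs
import Crest.Agent.N218.Pm.Kit1

-- ▼ part N218/En/Ste
section

/-! Row 218, END wrapper (helper80): `STE`. -/

set_option autoImplicit false
open Set

noncomputable section

namespace Crest.Agent.N218.En
open Pm Sk

theorem ste : STE := by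
  intro B F E _ _ _ _ _ _ _ _ _ A _ T k f π ε hk hπ e0 e1 g
  obtain ⟨o, h⟩ := Stb.prod T hk g.ct g.ok (B := 1 - (2 : ℝ) • π)
    (fun z => by simp [hπ.id]; module) e0 (by linarith)
  let e : V k (P2 F E) ≃L[ℝ] V k (F × E) :=
    .piCongrRight fun _ => WithLp.prodContinuousLinearEquiv 2 ℝ F E
  refine Pe.trans (.inl (congrArg (T.pa k (sp (P2 F E))) ?_))
    ((T.pa_cj k (sp (F × E)) (sp (P2 F E)) e _ hk o fun _ => rfl).trans h)
  refine congrArg₂ Pb.mk (Set.ext fun x => and_congr ?_ Iff.rfl) (funext fun x => funext fun i => ?_)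
  · exact (e.map_ne_zero_iff (x := mn x.2)).symm
  · rfl

end Crest.Agent.N218.En
end
end

-- ▼ part N218/En/Sgn
section

/-! Row 218, END wrapper (helper73): the negative spectral projection is continuous. -/

set_option autoImplicit false

open Set Topology
open scoped InnerProductSpace

noncomputable section

namespace Crest.Agent.N218.En

namespace Sg
variable {F : Type} [NormedAddCommGroup F] [InnerProductSpace ℝ F] [FiniteDimensional ℝ F]
  {H : F →L[ℝ] F}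

/-- the closed conditions -/
def Cd (H P : F →L[ℝ] F) : Prop := (∀ v, P (P v) = P v) ∧ (∀ v w, ⟪P v, w⟫_ℝ = ⟪v, P w⟫_ℝ) ∧
  (∀ v, H (P v) = P (H v)) ∧ (∀ v, ⟪H (P v), P v⟫_ℝ ≤ 0) ∧ ∀ v, 0 ≤ ⟪H (v - P v), v - P v⟫_ℝ

theorem basis (hs : ∀ v w, ⟪H v, w⟫_ℝ = ⟪v, H w⟫_ℝ) :
    ∃ (b : OrthonormalBasis (Fin (Module.finrank ℝ F)) ℝ F) (l : _ → ℝ),
      ∀ i, H (b i) = l i • b i :=
  have s : (H : F →ₗ[ℝ] F).IsSymmetric := hs
  ⟨s.eigenvectorBasis rfl, s.eigenvalues rfl, fun i => s.apply_eigenvectorBasis rfl i⟩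

theorem uniq (hs : ∀ v w, ⟪H v, w⟫_ℝ = ⟪v, H w⟫_ℝ) (hi : ∀ v, H v = 0 → v = 0)
    {P P' : F →L[ℝ] F} (h : Cd H P) (h' : Cd H P') : P = P' := by
  obtain ⟨b, l, hb⟩ := basis hs
  have k : ∀ {P}, Cd H P → ∀ i, P (b i) = if l i < 0 then b i else 0 := fun {P} h i => by
    have e : H (P (b i)) = l i • P (b i) := by rw [h.2.2.1, hb, map_smul]
    split_ifs with q
    · have := h.2.2.2.2 (b i)
      rw [map_sub, e, hb, ← smul_sub, real_inner_smul_left] at this
      exact (sub_eq_zero.1 (inner_self_eq_zero.1 (le_antisymm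
        (by nlinarith [real_inner_self_nonneg (x := b i - P (b i))]) real_inner_self_nonneg))).symm
    · have := h.2.2.2.1 (b i)
      rw [e, real_inner_smul_left] at this
      have p : 0 < l i := lt_of_le_of_ne (not_lt.1 q) fun z =>
        b.orthonormal.ne_zero i (hi _ (by rw [hb, ← z, zero_smul]))
      exact inner_self_eq_zero.1 (le_antisymm
        (by nlinarith [real_inner_self_nonneg (x := P (b i))]) real_inner_self_nonneg)
  refine ContinuousLinearMap.coe_injective (b.toBasis.ext fun i => ?_)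
  exact (k h i).trans (k h' i).symm

theorem ex (hs : ∀ v w, ⟪H v, w⟫_ℝ = ⟪v, H w⟫_ℝ) {a : ℝ} (ha : ∀ v, a * ‖v‖ ≤ ‖H v‖) :
    ∃ P, Cd H P ∧ ∀ v, ⟪H (P v), P v⟫_ℝ ≤ -(a * ‖P v‖ ^ 2) := by
  obtain ⟨b, l, hb⟩ := basis hs
  let P : F →L[ℝ] F := ∑ i with l i < 0, (innerSL ℝ (b i)).smulRight (b i)
  have hP : ∀ j v, ⟪b j, P v⟫_ℝ = if l j < 0 then ⟪b j, v⟫_ℝ else 0 := fun j v => by
    simp [P, inner_sum, inner_smul_right, orthonormal_iff_ite.1 b.orthonormal]
  have hH : ∀ j v, ⟪b j, H v⟫_ℝ = l j * ⟪b j, v⟫_ℝ := fun j v => by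
    rw [← hs, hb, real_inner_smul_left]
  have ip : ∀ u v, ⟪u, v⟫_ℝ = ∑ j, ⟪b j, u⟫_ℝ * ⟪b j, v⟫_ℝ := fun u v => by
    rw [← b.sum_inner_mul_inner]
    exact Finset.sum_congr rfl fun j _ => by rw [real_inner_comm]
  have ext : ∀ {u v}, (∀ j, ⟪b j, u⟫_ℝ = ⟪b j, v⟫_ℝ) → u = v := fun {u v} h =>
    ext_inner_right ℝ fun w => by rw [ip, ip v]; simp only [h]
  have al : ∀ j, a ≤ |l j| := fun j => by
    simpa [hb, norm_smul, b.orthonormal.1 j] using ha (b j)
  have ng : ∀ c, (∀ j, l j < 0 → l j ≤ -c) → ∀ v, ⟪H (P v), P v⟫_ℝ ≤ -(c * ‖P v‖ ^ 2) :=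
    fun c hc v => by
      rw [← real_inner_self_eq_norm_sq, ip, ip (P v), Finset.mul_sum, ← Finset.sum_neg_distrib]
      refine Finset.sum_le_sum fun j _ => ?_
      rw [hH, hP]
      split_ifs with q
      · nlinarith [hc j q, mul_self_nonneg ⟪b j, v⟫_ℝ]
      · simp
  refine ⟨P, ⟨fun v => ext fun j => ?_, fun v w => ?_, fun v => ext fun j => ?_, fun v => ?_,
    fun v => ?_⟩, ng a fun j q => by linarith [al j, abs_of_neg q]⟩
  · rw [hP, hP]; split_ifs <;> rfl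
  · rw [ip, ip v]
    refine Finset.sum_congr rfl fun j _ => ?_
    rw [hP, hP]; split_ifs <;> simp
  · rw [hH, hP, hP, hH]; split_ifs <;> simp
  · simpa using ng 0 (fun j q => by linarith) v
  · rw [ip]
    refine Finset.sum_nonneg fun j _ => ?_
    rw [hH, inner_sub_right, hP]
    split_ifs with q
    · simp
    · nlinarith [mul_self_nonneg (⟪b j, v⟫_ℝ - 0)]

omit [FiniteDimensional ℝ F] in
theorem Cd.norm {P : F →L[ℝ] F} (h : Cd H P) : ‖P‖ ≤ 1 :=
  P.opNorm_le_bound zero_le_one fun v => by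
    have := real_inner_le_norm v (P v)
    rw [← h.1 v, ← h.2.1, real_inner_self_eq_norm_sq, h.1] at this
    nlinarith [norm_nonneg v, norm_nonneg (P v)]

end Sg

open Sg

theorem sgn : SGN := by
  intro B F _ _ _ _ _ _ H hc hs hi
  obtain ⟨a, a0, ha⟩ : ∃ a > 0, ∀ b v, a * ‖v‖ ≤ ‖H b v‖ := by
    have k : IsCompact ((univ : Set B) ×ˢ Metric.sphere (0 : F) 1) :=
      isCompact_univ.prod (isCompact_sphere 0 1)
    obtain ⟨a, a0, h⟩ := k.exists_forall_le' (f := fun w : B × F => ‖H w.1 w.2‖) (a := 0)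
      (Continuous.continuousOn (by fun_prop)) fun w hw => norm_pos_iff.2 fun z => by
        simpa [hi _ _ z] using hw.2
    refine ⟨a, a0, fun b v => ?_⟩
    by_cases z : v = 0
    · simp [z]
    have p := norm_pos_iff.2 z
    have := h (b, ‖v‖⁻¹ • v) ⟨trivial, by simp [norm_smul, p.ne']⟩
    simp only [map_smul, norm_smul, norm_inv, norm_norm] at this
    rwa [le_inv_mul_iff₀ p, mul_comm] at this
  choose P h hn using fun b => ex (hs b) (ha b)
  refine ⟨P, a, a0, ?_, fun b => ⟨(h b).1, (h b).2.1⟩, fun b => (h b).2.2.1, hn, fun b v z => ?_⟩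
  · refine continuousOn_univ.1 (C.Toe.cont_of_graph (Γ := {w : B × (F →L[ℝ] F) | Cd (H w.1) w.2})
      ((isCompact_univ.prod (isCompact_closedBall (0 : F →L[ℝ] F) 1)).of_isClosed_subset ?_
        fun w hw => ⟨trivial, mem_closedBall_zero_iff.2 (Cd.norm hw)⟩) fun x p =>
      ⟨fun k => ⟨trivial, uniq (hs x) (hi x) k (h x)⟩, fun k => k.2 ▸ h x⟩)
    simp only [Cd, ofPred_and, ofPred_forall]
    refine (isClosed_iInter fun v => isClosed_eq ?_ ?_).inter ((isClosed_iInter fun v =>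
      isClosed_iInter fun w => isClosed_eq ?_ ?_).inter ((isClosed_iInter fun v =>
      isClosed_eq ?_ ?_).inter ((isClosed_iInter fun v => isClosed_le ?_ ?_).inter
      (isClosed_iInter fun v => isClosed_le ?_ ?_)))) <;> fun_prop
  · simpa [z] using (h b).2.2.2.2 v

end Crest.Agent.N218.En

end
end

-- ▼ part N218/D7/Dim
section

/-!
# Row 218, block D7 (helper37): the two unstable spaces have the same dimension
-/

set_option autoImplicit false
set_option linter.unusedVariables false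
set_option linter.unusedSectionVars false

open Set OnePoint unitInterval Module Metric

noncomputable section

namespace Crest.Agent.N218.D7.Dm

open K Crest.Agent.R204 K357

/-- the rank at a point -/
def rk {Y : Type} [TopologicalSpace Y] (y : Y) : KX Y →+* KC ℂ := KA (ContinuousMap.evalAlgHom ℂ ℂ y)

theorem rk_pull {X Y : Type} [TopologicalSpace X] [TopologicalSpace Y] (f : C(X, Y)) (x : X)
    (b : KX Y) : rk x (pull f b) = rk (f x) b :=
  (K0.map_comp ((ContinuousMap.evalAlgHom ℂ ℂ x : C(X, ℂ) →ₐ[ℂ] ℂ) : C(X, ℂ) →+* ℂ)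
    ((ContinuousMap.compRightAlgHom ℂ ℂ f : C(Y, ℂ) →ₐ[ℂ] C(X, ℂ)) : C(Y, ℂ) →+* C(X, ℂ)) b).symm

theorem pull_const {X Y : Type} [TopologicalSpace X] [TopologicalSpace Y] (y : Y) {b : KX Y}
    (h : rk y b = 0) : pull (.const X y) b = 0 :=
  (K0.map_comp ((Algebra.ofId ℂ C(X, ℂ) : ℂ →ₐ[ℂ] C(X, ℂ)) : ℂ →+* C(X, ℂ))
    ((ContinuousMap.evalAlgHom ℂ ℂ y : C(Y, ℂ) →ₐ[ℂ] ℂ) : C(Y, ℂ) →+* ℂ) b).trans
    ((congrArg (KA (Algebra.ofId ℂ C(X, ℂ))) h).trans (map_zero _))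

variable {A B : Type} [NormedAddCommGroup A] [NormedSpace ℂ A] [FiniteDimensional ℂ A]
  [NormedAddCommGroup B] [NormedSpace ℂ B] [FiniteDimensional ℂ B]

variable (A) in
/-- K-theory of even spheres -/
theorem sph (h : finrank ℂ A ≠ 0) : ∃ b : KX (OnePoint A), rk ∞ b = 0 ∧
    (∀ x, rk ∞ x = 0 → ∃ n : ℤ, x = n • b) ∧ (∀ n : ℤ, n • b = 0 → n = 0) ∧
    ps _ b = (3 : ℤ) ^ finrank ℂ A • b := by
  obtain ⟨n, hn⟩ : ∃ n, 2 * finrank ℂ A = n + 1 := ⟨2 * finrank ℂ A - 1, by omega⟩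
  have : ProperSpace A := FiniteDimensional.proper ℂ A
  let e : A ≃L[ℝ] (Fin (n + 1) → ℝ) := .ofFinrankEq (by
    rw [finrank_real_of_complex, hn, finrank_fin_fun])
  have i : Function.Injective (Nf.om e.symm) := Function.LeftInverse.injective (Nf.om_symm e.symm)
  let c : H472.Collapse (Fin (n + 1)) (OnePoint A) ∞ :=
    ⟨(Nf.om e.symm).comp (Nf.cs n).p, fun y => ((Nf.cs n).surj (Nf.om e y)).imp fun x k =>
      (congrArg (Nf.om e.symm) k).trans (Nf.om_symm e y), fun x z k => (Nf.cs n).inj x z (i k),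
      fun x => ⟨fun k => (Nf.cs n).mem_bdry_of_p_eq n.succ_pos (i k),
        fun k => congrArg (Nf.om e.symm) ((Nf.cs n).bdry x k)⟩⟩
  have ev : Even (n + 1) := hn ▸ even_two_mul _
  obtain ⟨b0, b1, b2⟩ := Bt837.bY_kz n.succ_pos ev c
  refine ⟨_, b0, b1, b2, (Bt837.psi_bY n.succ_pos ev c 3).trans ?_⟩
  rw [show n.succ / 2 = finrank ℂ A by omega]; rfl

theorem dimK (h : finrank ℂ A ≠ 0) (f : C(OnePoint A, OnePoint B)) (g : C(OnePoint B, OnePoint A))
    (hf : f ∞ = ∞) (hg : g ∞ = ∞) (H : (ContinuousMap.id _).Homotopy (g.comp f)) :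
    finrank ℂ A = finrank ℂ B := by
  obtain ⟨a, a0, -, a2, a3⟩ := sph A h
  have e : pull (g.comp f) a = a := by rw [← pull_htpy H, pull_id]
  have ne : a ≠ 0 := fun k => one_ne_zero (a2 1 (by rw [k, smul_zero]))
  by_cases z : finrank ℂ B = 0
  · have : Subsingleton B := finrank_zero_iff.1 z
    have : Nontrivial A := Module.nontrivial_of_finrank_pos (Nat.pos_of_ne_zero h)
    have : NoncompactSpace A := NormedSpace.noncompactSpace ℂ A
    have : Finite (OnePoint B) := inferInstanceAs (Finite (Option B))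
    have k : g.comp f = .const _ ∞ := ContinuousMap.ext fun y =>
      (congrArg g ((PreconnectedSpace.constant inferInstance f.continuous).trans hf)).trans hg
    exact (ne (by rw [← e, k, pull_const _ a0])).elim
  obtain ⟨b, -, b1, b2, b3⟩ := sph B z
  obtain ⟨m, hm⟩ := b1 (pull g a) (by rw [rk_pull, hg, a0])
  have k := ps_pull g a
  rw [a3, map_zsmul, hm, map_zsmul, b3, smul_smul, smul_smul, ← sub_eq_zero, ← sub_smul] at k
  have m0 : m ≠ 0 := fun k => ne (by rw [← e, pull_comp, hm, k, zero_smul, map_zero])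
  have := mul_left_cancel₀ m0 ((sub_eq_zero.1 (b2 _ k)).trans (mul_comm _ _))
  exact (Nat.pow_right_injective (le_of_lt (by norm_num : 2 < 3)) (by exact_mod_cast this)).symm

open Classical in
/-- extension by `∞` -/
def pe {T : Type} (O : Set T) (f : T → B) (t : T) : OnePoint B := if t ∈ O then f t else ∞

theorem pe_in {T : Type} {O : Set T} (f : T → B) {t : T} (h : t ∈ O) : pe O f t = f t := if_pos h
theorem pe_out {T : Type} {O : Set T} (f : T → B) {t : T} (h : t ∉ O) : pe O f t = ∞ := if_neg h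

theorem ox_in {T : Type} {O : Set (T × A)} (f : T × A → B) {t : T} {y : A} (h : (t, y) ∈ O) :
    opx (pe O f) (t, (y : OnePoint A)) = f (t, y) := pe_in f h
theorem ox_out {T : Type} {O : Set (T × A)} (f : T × A → B) {t : T} {y : A} (h : (t, y) ∉ O) :
    opx (pe O f) (t, (y : OnePoint A)) = ∞ := pe_out f h

theorem key {T : Type} [TopologicalSpace T] {O : Set (T × A)} {f : T × A → B} (hO : IsOpen O)
    (hf : ContinuousOn f O) (h : ∀ R, ∃ S, IsClosed S ∧ S ⊆ O ∧ ∃ C, ∀ w ∈ O, ‖f w‖ ≤ R →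
      w ∈ S ∧ ‖w.2‖ ≤ C) : Continuous (opx (pe O f)) := by
  have : ProperSpace A := FiniteDimensional.proper ℂ A
  refine continuous_opx (continuous_def.2 fun U hU => ?_) fun K hK => ?_
  · by_cases i : ∞ ∈ U
    · obtain ⟨c1, c2⟩ := (isOpen_iff_of_mem i).1 hU
      obtain ⟨R, hR⟩ := c2.isBounded.exists_norm_le
      obtain ⟨S, s1, s2, C, s3⟩ := h R
      rw [← isClosed_compl_iff]
      convert (hf.mono s2).preimage_isClosed_of_isClosed s1 c1 using 1
      ext w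
      by_cases o : w ∈ O
      · simp only [mem_compl_iff, mem_preimage, pe_in f o, mem_inter_iff]
        exact ⟨fun k => ⟨(s3 w o (hR _ k)).1, k⟩, fun k => k.2⟩
      · simp only [mem_compl_iff, mem_preimage, pe_out f o, mem_inter_iff]
        exact ⟨fun k => (k i).elim, fun k => (o (s2 k.1)).elim⟩
    · convert hf.isOpen_inter_preimage hO ((isOpen_iff_of_notMem i).1 hU) using 1
      ext w
      by_cases o : w ∈ O
      · simp only [mem_preimage, pe_in f o, mem_inter_iff, o, true_and]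
      · simp only [mem_preimage, pe_out f o, mem_inter_iff, o, false_and, i]
  · obtain ⟨R, hR⟩ := hK.isBounded.exists_norm_le
    obtain ⟨S, -, -, C, s3⟩ := h R
    refine ⟨closedBall 0 C, isCompact_closedBall _ _, fun p w w' n k m => n ?_⟩
    by_cases o : (p, w) ∈ O
    · rw [pe_in f o, coe_eq_coe] at k
      exact mem_closedBall_zero_iff.2 (s3 _ o (k ▸ hR _ m)).2
    · rw [pe_out f o] at k; exact (infty_ne_coe _ k).elim

end Crest.Agent.N218.D7.Dm

namespace Crest.Agent.N218.D7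

open Pm Dm K

theorem dim : DIM := by
  intro E₁ E₂ _ _ _ _ _ _ D c κ R₀ M h c1 c2
  obtain ⟨x⟩ : Nonempty Sx := (NormedSpace.sphere_nonempty.2 zero_le_one).to_subtype
  set W₁ : Submodule ℂ E₁ := (D.π₁ x).range
  set W₂ : Submodule ℂ E₂ := (D.π₂ x).range
  let r₁ : E₁ →L[ℂ] W₁ := (D.π₁ x).rangeRestrict
  let r₂ : E₂ →L[ℂ] W₂ := (D.π₂ x).rangeRestrict
  have i₁ : ∀ y : W₁, D.π₁ x y = y := by rintro ⟨_, y, rfl⟩; exact h.p₁.id x y
  have i₂ : ∀ y : W₂, D.π₂ x y = y := by rintro ⟨_, y, rfl⟩; exact h.p₂.id x y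
  have m0 : 0 < D.μ := one_pos.trans h.hμ
  have big : ∀ (a b : ℝ), 0 ≤ a → (R₀ ≤ a → (1 + κ) * a ≤ b) → a ≤ max R₀ b := fun a b a0 k =>
    (le_total a R₀).elim (·.trans (le_max_left _ _)) fun j =>
      le_max_of_le_right (by nlinarith [k j, h.hκ])
  have key1 : finrank ℂ W₁ = finrank ℂ W₂ := by
    by_cases z : finrank ℂ W₁ = 0
    · rw [z, eq_comm, finrank_zero_iff]
      have : Subsingleton W₁ := finrank_zero_iff.1 z
      by_contra k
      rw [not_subsingleton_iff_nontrivial] at k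
      obtain ⟨w, hw⟩ := NormedSpace.exists_lt_norm ℂ W₂ (max R₀ 0)
      refine hw.not_ge (big _ _ (norm_nonneg w) fun j => ?_)
      have := h.ux x w (by rwa [i₂])
      rwa [i₂, show D.π₁ x _ = (r₁ (D.u (x, w)) : E₁) from rfl, Subsingleton.elim (r₁ _) 0,
        Submodule.coe_zero, norm_zero] at this
    let s : E₁ → W₁ := fun y => r₁ (D.μ⁻¹ • y)
    have sc : Continuous s := r₁.continuous.comp (continuous_const_smul _)
    have sn : ∀ y, ‖D.π₁ x y‖ = D.μ * ‖s y‖ := fun y => by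
      change _ = D.μ * ‖D.π₁ x (D.μ⁻¹ • y)‖
      rw [(D.π₁ x).map_smul_of_tower, norm_smul, Real.norm_of_nonneg (inv_pos.2 m0).le,
        mul_inv_cancel_left₀ m0.ne']
    have q1 : Continuous fun w : Unit × W₁ => (x, (w.2 : E₁)) := by fun_prop
    have q2 : Continuous fun w : Unit × W₂ => (x, (w.2 : E₂)) := by fun_prop
    have q3 : Continuous fun w : I × W₁ => ((x, (w.1 : ℝ)), (w.2 : E₁)) := by fun_prop
    have hf := key (O := {w : Unit × W₁ | (x, (w.2 : E₁)) ∈ D.Ov})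
      (f := fun w => r₂ (D.v (x, w.2))) (h.vo.preimage q1)
      (r₂.continuous.comp_continuousOn (h.vc.comp q1.continuousOn fun _ a => a)) fun R =>
      ⟨_, (h.vk (max R R₀)).isClosed.preimage q1, fun _ a => a.1, R₀, fun w a b => by
        have := h.vb _ a
        rw [i₁] at this
        refine ⟨⟨a, le_max_of_le_left ?_, le_max_of_le_right this⟩, this⟩
        rwa [← h.vp _ a]⟩
    have hg := key (O := (univ : Set (Unit × W₂))) (f := fun w => s (D.u (x, w.2))) isOpen_univ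
      (sc.comp (h.uc.comp q2)).continuousOn fun R =>
      ⟨_, isClosed_univ, subset_rfl, max R₀ (D.μ * R), fun w _ b => ⟨trivial,
        big _ _ (norm_nonneg _) fun j => by
          have := h.ux x w.2 (by rwa [i₂])
          rw [i₂, sn] at this
          exact this.trans (mul_le_mul_of_nonneg_left b m0.le)⟩⟩
    have hH := key (O := {w : I × W₁ | ((x, (w.1 : ℝ)), (w.2 : E₁)) ∈ D.O₁})
      (f := fun w => s (D.h₁ ((x, w.1), w.2))) (h.o₁.preimage q3)
      (sc.comp_continuousOn (h.c₁.comp q3.continuousOn fun _ a => a)) fun R =>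
      ⟨_, (h.k₁ (max 1 (max (D.μ * R + M) (max R₀ (D.μ * R))))).isClosed.preimage q3,
        fun _ a => a.1, max R₀ (D.μ * R), fun w a b => by
        have n := (sn _).trans_le (mul_le_mul_of_nonneg_left b m0.le)
        have y : ‖w.2‖ ≤ max R₀ (D.μ * R) := big _ _ (norm_nonneg _) fun j => by
          have := h.x₁ _ a (by rwa [i₁])
          rw [i₁] at this
          exact this.trans n
        have k := h.b₁ _ a
        rw [i₁, sub_self, norm_zero, mul_zero, add_zero] at k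
        refine ⟨⟨a, le_max_of_le_left (abs_le.2 ⟨by linarith [w.1.2.1], w.1.2.2⟩),
          le_max_of_le_right (le_max_of_le_left ?_), le_max_of_le_right (le_max_of_le_right y)⟩, y⟩
        linarith [norm_le_norm_add_norm_sub' (D.h₁ ((x, w.1), w.2)) (D.π₁ x (D.h₁ ((x, w.1), w.2)))]⟩
    refine dimK z ⟨fun y => _, hf.comp (.prodMk_right ())⟩ ⟨fun y => _, hg.comp (.prodMk_right ())⟩
      rfl rfl ⟨⟨_, hH⟩, fun y => ?_, fun y => ?_⟩ <;> induction y using OnePoint.rec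
    · rfl
    · rename_i y
      obtain ⟨a, b⟩ := h.l₁ x 0 y le_rfl
      simp only [ContinuousMap.id_apply]
      rw [ox_in _ (by exact a)]
      refine congrArg _ (Subtype.ext ?_)
      change D.π₁ x (D.μ⁻¹ • D.h₁ ((x, 0), y)) = y
      rw [b, (D.π₁ x).map_smul_of_tower, map_add, (h.Cp x y).1, zero_add,
        (D.π₁ x).map_smul_of_tower, i₁, i₁, inv_smul_smul₀ m0.ne']
    · rfl
    · rename_i y
      obtain ⟨a, b⟩ := h.r₁ x 1 y le_rfl
      simp only [ContinuousMap.comp_apply, ContinuousMap.coe_mk, Function.comp_apply]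
      by_cases o : (x, (y : E₁)) ∈ D.Ov
      · rw [ox_in _ (by exact a.2 o), ox_in _ (by exact o), ox_in _ (mem_univ _)]
        refine congrArg (fun w => ((s w : W₁) : OnePoint W₁)) ((b o).trans ?_)
        exact (h.up x _).symm
      · rw [ox_out _ (by exact mt a.1 o), ox_out _ (by exact o), opx_infty]
  let e : W₁ ≃L[ℂ] W₂ := .ofFinrankEq key1
  have k₁ : ∀ y : W₁, r₁ y = y := fun y => Subtype.ext (i₁ y)
  have k₂ : ∀ y : W₂, r₂ y = y := fun y => Subtype.ext (i₂ y)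
  refine ⟨W₂.subtypeL ∘L (e : W₁ →L[ℂ] W₂) ∘L r₁, W₁.subtypeL ∘L (e.symm : W₂ →L[ℂ] W₁) ∘L r₂,
    fun x' y => ?_, fun x' y => ?_, fun y => ?_, fun y => ?_⟩
  · change _ = (e.symm (r₂ (e (r₁ y))) : E₁)
    rw [k₂, e.symm_apply_apply, c1 x' x]; rfl
  · change _ = (e (r₁ (e.symm (r₂ y))) : E₂)
    rw [k₁, e.apply_symm_apply, c2 x' x]; rfl
  · change (e (r₁ (e.symm (r₂ (e (r₁ y))))) : E₂) = e (r₁ y)
    rw [k₂, e.symm_apply_apply, k₁]
  · change (e.symm (r₂ (e (r₁ (e.symm (r₂ y))))) : E₁) = e.symm (r₂ y)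
    rw [k₁, e.apply_symm_apply, k₂]

end Crest.Agent.N218.D7

end
end

-- ▼ part N218/En/Dim
section

/-!
# Row 218, END (helper37): the two unstable spaces have the same real dimension
-/

set_option autoImplicit false
set_option linter.unusedVariables false
set_option linter.unusedSectionVars false

open Set OnePoint unitInterval Module Metric

noncomputable section

namespace Crest.Agent.N218.En.Dm

open K D7.Dm

variable {T A B : Type} [TopologicalSpace T] [NormedAddCommGroup A] [NormedSpace ℝ A]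
  [FiniteDimensional ℝ A] [NormedAddCommGroup B] [NormedSpace ℝ B] [FiniteDimensional ℝ B]

/-- proper partial maps -/
structure Pp (O : Set (T × A)) (f : T × A → B) : Prop where
  op : IsOpen O
  ct : ContinuousOn f O
  pr : ∀ R, ∃ S, IsClosed S ∧ S ⊆ O ∧ ∃ C, ∀ w ∈ O, ‖f w‖ ≤ R → w ∈ S ∧ ‖w.2‖ ≤ C

theorem Pp.key {O : Set (T × A)} {f : T × A → B} (h : Pp O f) : Continuous (opx (pe O f)) := by
  have i1 : ∀ {w}, w ∈ O → pe O f w = f w := fun a => if_pos a
  have i2 : ∀ {w}, w ∉ O → pe O f w = ∞ := fun a => if_neg a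
  refine continuous_opx (continuous_def.2 fun U hU => ?_) fun K hK => ?_
  · by_cases i : ∞ ∈ U
    · obtain ⟨c1, c2⟩ := (isOpen_iff_of_mem i).1 hU
      obtain ⟨R, hR⟩ := c2.isBounded.exists_norm_le
      obtain ⟨S, s1, s2, C, s3⟩ := h.pr R
      rw [← isClosed_compl_iff]
      convert (h.ct.mono s2).preimage_isClosed_of_isClosed s1 c1 using 1
      ext w
      by_cases o : w ∈ O
      · simp only [mem_compl_iff, mem_preimage, i1 o, mem_inter_iff]
        exact ⟨fun k => ⟨(s3 w o (hR _ k)).1, k⟩, fun k => k.2⟩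
      · simp only [mem_compl_iff, mem_preimage, i2 o, mem_inter_iff]
        exact ⟨fun k => (k i).elim, fun k => (o (s2 k.1)).elim⟩
    · convert h.ct.isOpen_inter_preimage h.op ((isOpen_iff_of_notMem i).1 hU) using 1
      ext w
      by_cases o : w ∈ O
      · simp only [mem_preimage, i1 o, mem_inter_iff, o, true_and]
      · simp only [mem_preimage, i2 o, mem_inter_iff, o, false_and, i]
  · obtain ⟨R, hR⟩ := hK.isBounded.exists_norm_le
    obtain ⟨S, -, -, C, s3⟩ := h.pr R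
    refine ⟨closedBall 0 C, isCompact_closedBall _ _, fun p w w' n k m => n ?_⟩
    by_cases o : (p, w) ∈ O
    · rw [i1 o, coe_eq_coe] at k
      exact mem_closedBall_zero_iff.2 (s3 _ o (k ▸ hR _ m)).2
    · rw [i2 o] at k; exact (infty_ne_coe _ k).elim

/-- the doubled domain -/
def db (O : Set (T × A)) : Set (T × (A × A)) := {w | (w.1, w.2.1) ∈ O ∧ (w.1, w.2.2) ∈ O}
/-- the doubled map -/
def df (f : T × A → B) (w : T × (A × A)) : B × B := (f (w.1, w.2.1), f (w.1, w.2.2))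

theorem Pp.two {O : Set (T × A)} {f : T × A → B} (h : Pp O f) : Pp (db O) (df f) := by
  have c1 : Continuous fun w : T × (A × A) => (w.1, w.2.1) := by fun_prop
  have c2 : Continuous fun w : T × (A × A) => (w.1, w.2.2) := by fun_prop
  refine ⟨(h.op.preimage c1).inter (h.op.preimage c2), (h.ct.comp c1.continuousOn fun _ a =>
    a.1).prodMk (h.ct.comp c2.continuousOn fun _ a => a.2), fun R => ?_⟩
  obtain ⟨S, s1, s2, C, s3⟩ := h.pr R
  refine ⟨db S, (s1.preimage c1).inter (s1.preimage c2), fun _ a => ⟨s2 a.1, s2 a.2⟩, C,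
    fun w a b => ?_⟩
  have u := s3 _ a.1 ((norm_fst_le (df f w)).trans b)
  have v := s3 _ a.2 ((norm_snd_le (df f w)).trans b)
  exact ⟨⟨u.1, v.1⟩, max_le u.2 v.2⟩

theorem dim2 (h : finrank ℝ A ≠ 0) (f : C(OnePoint (A × A), OnePoint (B × B)))
    (g : C(OnePoint (B × B), OnePoint (A × A))) (hf : f ∞ = ∞) (hg : g ∞ = ∞)
    (H : (ContinuousMap.id _).Homotopy (g.comp f)) : finrank ℝ A = finrank ℝ B := by
  let a : (A × A) ≃L[ℝ] (Fin (finrank ℝ A) → ℂ) := .ofFinrankEq (by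
    rw [finrank_real_of_complex, finrank_fin_fun, finrank_prod, two_mul])
  let b : (B × B) ≃L[ℝ] (Fin (finrank ℝ B) → ℂ) := .ofFinrankEq (by
    rw [finrank_real_of_complex, finrank_fin_fun, finrank_prod, two_mul])
  have := dimK (by rwa [finrank_fin_fun]) ((Nf.om b).comp (f.comp (Nf.om a.symm)))
    ((Nf.om a).comp (g.comp (Nf.om b.symm))) (congrArg (Nf.om b) hf) (congrArg (Nf.om a) hg)
    ⟨(Nf.om a).comp (H.toContinuousMap.comp ((ContinuousMap.id I).prodMap (Nf.om a.symm))),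
      fun y => (congrArg (Nf.om a) (H.apply_zero _)).trans (Nf.om_symm a.symm y),
      fun y => congrArg (Nf.om a) ((H.apply_one _).trans (congrArg g (Nf.om_symm b _).symm))⟩
  rwa [finrank_fin_fun, finrank_fin_fun] at this

/-- **invariance of dimension** for proper partial maps -/
theorem dimP (h : finrank ℝ A ≠ 0) {O : Set (Unit × A)} {f : Unit × A → B} {g : Unit × B → A}
    {O' : Set (I × A)} {H : I × A → A} (hf : Pp O f) (hg : Pp univ g) (hH : Pp O' H)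
    (h0 : ∀ y, (0, y) ∈ O' ∧ H (0, y) = y) (h1 : ∀ y, ((1, y) ∈ O' ↔ ((), y) ∈ O) ∧
      (((), y) ∈ O → H (1, y) = g ((), f ((), y)))) : finrank ℝ A = finrank ℝ B := by
  refine dim2 h ⟨fun y => opx (pe (db O) (df f)) ((), y), hf.two.key.comp (.prodMk_right ())⟩
    ⟨fun y => opx (pe (db univ) (df g)) ((), y), hg.two.key.comp (.prodMk_right ())⟩
    rfl rfl ⟨⟨_, hH.two.key⟩, fun y => ?_, fun y => ?_⟩ <;> induction y using OnePoint.rec
  · rfl
  · rename_i y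
    exact (if_pos ⟨(h0 _).1, (h0 _).1⟩).trans (congrArg _ (Prod.ext (h0 _).2 (h0 _).2))
  · rfl
  · rename_i y
    change pe (db O') (df H) (1, y) = opx (pe (db univ) (df g)) ((), pe (db O) (df f) ((), y))
    by_cases o : ((), y) ∈ db O
    · rw [show pe (db O) (df f) ((), y) = _ from if_pos o]
      exact (if_pos ⟨(h1 _).1.2 o.1, (h1 _).1.2 o.2⟩).trans ((congrArg _ (Prod.ext ((h1 _).2 o.1)
        ((h1 _).2 o.2))).trans (if_pos ⟨trivial, trivial⟩).symm)
    · rw [show pe (db O) (df f) ((), y) = _ from if_neg o]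
      exact if_neg fun k => o ⟨(h1 _).1.1 k.1, (h1 _).1.1 k.2⟩

end Crest.Agent.N218.En.Dm

namespace Crest.Agent.N218.En

open Dm

theorem dim : DIM := by
  intro X F E _ _ _ _ _ _ _ _ _ D c κ R₀ M O ph x h id1 i₂
  set W₁ : Submodule ℝ F := LinearMap.range (D.p₁ x : F →ₗ[ℝ] F)
  let r₁ : F →L[ℝ] W₁ := (D.p₁ x).rangeRestrict
  have i₁ : ∀ y : W₁, D.p₁ x y = y := by rintro ⟨_, y, rfl⟩; exact id1 y
  have m0 : 0 < D.μ := one_pos.trans h.l.hμ
  have big : ∀ (a b : ℝ), 0 ≤ a → (R₀ ≤ a → (1 + κ) * a ≤ b) → a ≤ max R₀ b := fun a b a0 k =>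
    (le_total a R₀).elim (·.trans (le_max_left _ _)) fun j =>
      le_max_of_le_right (by nlinarith [k j, h.l.hκ])
  by_cases z : finrank ℝ W₁ = 0
  · rw [z, eq_comm, finrank_zero_iff]
    have : Subsingleton W₁ := finrank_zero_iff.1 z
    by_contra k
    rw [not_subsingleton_iff_nontrivial] at k
    obtain ⟨w, hw⟩ := NormedSpace.exists_lt_norm ℝ E (max R₀ 0)
    refine hw.not_ge (big _ _ (norm_nonneg w) fun j => ?_)
    have := h.u.ux x w (by rwa [i₂])
    rwa [i₂, show D.p₁ x _ = (r₁ (D.u (x, w)) : F) from rfl, Subsingleton.elim (r₁ _) 0,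
      Submodule.coe_zero, norm_zero] at this
  let s : F → W₁ := fun y => r₁ (D.μ⁻¹ • y)
  have sc : Continuous s := r₁.continuous.comp (continuous_const_smul _)
  have sn : ∀ y, ‖D.p₁ x y‖ = D.μ * ‖s y‖ := fun y => by
    change _ = D.μ * ‖D.p₁ x (D.μ⁻¹ • y)‖
    rw [_root_.map_smul, norm_smul, Real.norm_of_nonneg (inv_pos.2 m0).le, mul_inv_cancel_left₀ m0.ne']
  have q1 : Continuous fun w : Unit × W₁ => (x, (w.2 : F)) := by fun_prop
  have q2 : Continuous fun w : Unit × E => (x, w.2) := by fun_prop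
  have q3 : Continuous fun w : I × W₁ => ((x, (w.1 : ℝ)), (w.2 : F)) := by fun_prop
  refine dimP z (O := {w : Unit × W₁ | (x, (w.2 : F)) ∈ D.Ov}) (f := fun w => D.v (x, w.2))
    (g := fun w => s (D.u (x, w.2))) (O' := {w : I × W₁ | ((x, (w.1 : ℝ)), (w.2 : F)) ∈ D.O₁})
    (H := fun w => s (D.h₁ ((x, w.1), w.2)))
    ⟨h.u.vo.preimage q1, h.u.vc.comp q1.continuousOn fun _ a => a, fun R =>
      ⟨_, (h.u.vk (max R R₀)).isClosed.preimage q1, fun _ a => a.1, R₀, fun w a b => ?_⟩⟩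
    ⟨isOpen_univ, (sc.comp (h.u.uc.comp q2)).continuousOn, fun R =>
      ⟨_, isClosed_univ, subset_rfl, max R₀ (D.μ * R), fun w _ b => ⟨trivial,
        big _ _ (norm_nonneg _) fun j => ?_⟩⟩⟩
    ⟨h.a.hp.op.preimage q3, sc.comp_continuousOn (h.a.hp.ct.comp q3.continuousOn fun _ a => a),
      fun R => ⟨_, (h.a.hp.cp (max 1 (max (D.μ * R + M) (max R₀ (D.μ * R))))).isClosed.preimage q3,
        fun _ a => a.1, max R₀ (D.μ * R), fun w a b => ?_⟩⟩ (fun y => ?_) fun y => ?_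
  · have := h.u.vb _ a
    rw [i₁] at this
    exact ⟨⟨a, le_max_of_le_left b, le_max_of_le_right this⟩, this⟩
  · have := h.u.ux x w.2 (by rwa [i₂])
    rw [i₂, sn] at this
    exact this.trans (mul_le_mul_of_nonneg_left b m0.le)
  · have n := (sn _).trans_le (mul_le_mul_of_nonneg_left b m0.le)
    have y : ‖w.2‖ ≤ max R₀ (D.μ * R) := big _ _ (norm_nonneg _) fun j => by
      have := h.a.hp.ex _ a (by rwa [i₁])
      rw [i₁] at this
      exact this.trans n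
    have k := h.a.hp.bd _ a
    rw [i₁, sub_self, norm_zero, mul_zero, add_zero] at k
    refine ⟨⟨a, le_max_of_le_left (abs_le.2 ⟨by linarith [w.1.2.1], w.1.2.2⟩),
      le_max_of_le_right (le_max_of_le_left ?_), le_max_of_le_right (le_max_of_le_right y)⟩, y⟩
    linarith [norm_le_norm_add_norm_sub' (D.h₁ ((x, w.1), w.2)) (D.p₁ x (D.h₁ ((x, w.1), w.2)))]
  · obtain ⟨a, b⟩ := h.a.hp.ln x 0 y le_rfl
    refine ⟨a, Subtype.ext ?_⟩
    change D.p₁ x (D.μ⁻¹ • D.h₁ ((x, 0), y)) = y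
    rw [b, _root_.map_smul, map_add, (h.l.Cp x y).1, zero_add, _root_.map_smul, i₁, i₁, inv_smul_smul₀ m0.ne']
  · obtain ⟨a, b⟩ := h.a.r₁ x 1 y le_rfl
    exact ⟨a, fun o => congrArg s (b o)⟩

end Crest.Agent.N218.En

end
end

-- ▼ part N218/Rd/Dich
section

/-! Row 218, RED (helper16): the constants of the dynamics. -/

set_option autoImplicit false
set_option linter.unusedSectionVars false
open Set Topology
open scoped InnerProductSpace

noncomputable section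

namespace Crest.Agent.N218.Rd
open Pm

namespace Di

theorem drop {Z : Type} [TopologicalSpace Z] {Φ : Z → Z} {g : Z → ℝ} (hΦ : Continuous Φ)
    (hg : Continuous g) {I S K : Set Z} (hK : IsCompact K) (hI : ∀ w ∈ I, Φ w ∈ I)
    (hS : ∀ w ∈ I, w ∈ S → Φ w ∈ S) (hIK : ∀ w ∈ I, w ∉ S → w ∈ K)
    (hd : ∀ w ∈ K, g (Φ w) < g w) : ∃ T : ℕ, ∀ w ∈ I, Φ^[T] w ∈ S := by
  obtain ⟨m, m0, hm⟩ := hK.exists_forall_le' (hg.sub (hg.comp hΦ)).continuousOn
    (a := 0) fun w hw => sub_pos.2 (hd w hw)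
  obtain ⟨B, hB⟩ := hK.exists_bound_of_continuousOn hg.continuousOn
  have key : ∀ w ∈ I, ∀ n : ℕ, Φ^[n] w ∈ I ∧ (Φ^[n] w ∈ S ∨ g (Φ^[n] w) ≤ B - n * m) := by
    intro w hw n
    induction n with
    | zero =>
      refine ⟨hw, or_iff_not_imp_left.2 fun k => ?_⟩
      simpa using (abs_le.1 (hB w (hIK w hw k))).2
    | succ n ih =>
      rw [Function.iterate_succ_apply']
      refine ⟨hI _ ih.1, ?_⟩
      by_cases k : Φ^[n] w ∈ S
      · exact .inl (hS _ ih.1 k)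
      · have a := hm _ (hIK _ ih.1 k)
        have b := ih.2.resolve_left k
        simp only [Function.comp_apply, Pi.sub_apply] at a
        right; push_cast; linarith
  obtain ⟨T, hT⟩ := exists_nat_gt (2 * B / m)
  refine ⟨T, fun w hw => by_contra fun k => ?_⟩
  have a := (abs_le.1 (hB _ (hIK _ (key w hw T).1 k))).1
  have b := (key w hw T).2.resolve_left k
  rw [div_lt_iff₀ m0] at hT
  linarith

variable {X E₁ E₂ : Type} [TopologicalSpace X] [NormedAddCommGroup E₁] [InnerProductSpace ℝ E₁]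
  [NormedAddCommGroup E₂] [InnerProductSpace ℝ E₂] {G : Rg X E₁ E₂} {c κ R₀ M : ℝ}

theorem it_eq (n : ℕ) (w : X × E₁) :
    (fun w : X × E₁ => (w.1, G.f w))^[n] w = (w.1, G.fi n w) := by
  induction n with
  | zero => rfl
  | succ n ih => rw [Function.iterate_succ_apply', ih, Rg.fi, Rg.fi, Function.iterate_succ_apply']

variable (h : G.Ok c κ R₀ M)
include h

theorem ker (x : X) (y : E₁) : G.ι' x (y - G.ι x (G.ι' x y)) = 0 := by
  refine ext_inner_left ℝ fun z => ?_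
  have a := h.ad x (G.ι' x (G.ι x z)) y
  have b := h.ad x (G.ι' x y) (G.ι x z)
  rw [h.iii, real_inner_comm (G.ι' x y), ← b, real_inner_comm (G.ι x z)] at a
  rw [inner_zero_right, ← h.ad, inner_sub_right, a, sub_self]

theorem orth (x : X) (z : E₂) {y : E₁} (e : G.ι' x y = 0) : ⟪G.ι x z, y⟫_ℝ = 0 := by
  rw [h.ad, e, inner_zero_right]

theorem kerH (x : X) {y : E₁} (e : G.ι' x y = 0) : G.ι' x (G.H x y) = 0 := by
  have := ker h x (G.H x y)
  rwa [← h.HP, e, map_zero, map_zero, sub_zero] at this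

theorem le_half (x : X) (y : E₁) : ⟪G.H x y, y⟫_ℝ ≤ 1 / 2 * ‖y‖ ^ 2 :=
  (real_inner_le_norm _ _).trans (by nlinarith [h.Hn x y, norm_nonneg y])

theorem contr (x : X) {y : E₁} (e : G.ι' x y = 0) : ‖y - G.H x y‖ ≤ ‖y‖ := by
  have a := h.Hp x (y - (2 : ℝ) • G.H x y) (by rw [map_sub, map_smul, e, kerH h x e]; simp)
  have b := le_half h x (G.H x y)
  have d := h.Hs x (G.H x y) y
  simp only [map_sub, map_smul, inner_sub_left, inner_sub_right, real_inner_smul_left,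
    real_inner_smul_right, real_inner_self_eq_norm_sq] at a d
  refine abs_le_of_sq_le_sq' ?_ (norm_nonneg _) |>.2
  rw [norm_sub_sq_real, real_inner_comm]
  nlinarith [sq_nonneg ‖G.H x y‖]

theorem pyth (x : X) (y : E₁) :
    ‖y‖ ^ 2 = ‖G.ι x (G.ι' x y)‖ ^ 2 + ‖y - G.ι x (G.ι' x y)‖ ^ 2 := by
  have := norm_add_sq_real (G.ι x (G.ι' x y)) (y - G.ι x (G.ι' x y))
  rwa [add_sub_cancel, orth h x _ (ker h x y), mul_zero, add_zero] at this

theorem form (x : X) (y : E₁) : ⟪G.H x y, y⟫_ℝ ≤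
    -(G.a * ‖G.ι x (G.ι' x y)‖ ^ 2) + 1 / 2 * ‖y - G.ι x (G.ι' x y)‖ ^ 2 := by
  have a := h.Hm x (G.ι' x y)
  have b := le_half h x (y - G.ι x (G.ι' x y))
  have d := orth h x (G.ι' x y) (kerH h x (ker h x y))
  have d' := (h.Hs x _ _).trans d
  rw [real_inner_comm] at d
  simp only [map_sub, inner_sub_left, inner_sub_right] at b d d'
  linarith

theorem f_lin (x : X) {y : E₁} (hy : ‖y‖ ≤ 2 * G.r) : G.f (x, y) = y - G.H x y := by
  obtain ⟨a, -, b⟩ := h.ln x y hy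
  rw [← h.j1 _ a, b 1 ⟨zero_le_one, le_rfl⟩, one_smul]

theorem g_f {w : X × E₁} (hw : w ∈ G.Dm) : G.g (w.1, G.f w) ≤ G.g w :=
  h.j1 w hw ▸ h.jg 1 ⟨zero_le_one, le_rfl⟩ w hw

theorem di : ∃ T, ∀ w ∈ G.Dm,
    ‖G.fi T w‖ < G.r ∨ G.g (w.1, G.fi T w) ≤ -(G.a * G.r ^ 2 / 4) := by
  have a0 := h.ha
  have r0 := h.hr
  obtain ⟨t, t0, t1, t2⟩ : ∃ t : ℝ, 0 < t ∧ t < 1 ∧ t * (1 + 2 * G.a) ≤ G.a :=
    ⟨G.a / (1 + 2 * G.a), by positivity, by rw [div_lt_one (by positivity)]; linarith,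
      (div_mul_cancel₀ _ (by positivity)).le⟩
  refine (drop (continuous_fst.prodMk h.fc) h.gc (I := G.Dm)
    (S := {w | G.g w ≤ -(G.a * G.r ^ 2 / 4) ∨
      ‖w.2‖ < G.r ∧ ‖w.2 - G.ι w.1 (G.ι' w.1 w.2)‖ ≤ t * G.r})
    ((h.gk (G.a * G.r ^ 2 / 4)).inter_right
      (isClosed_le continuous_const continuous_snd.norm : IsClosed {w : X × E₁ | t * G.r ≤ ‖w.2‖}))
    (fun w _ => h.fD w) (fun w hw k => ?_) (fun w hw k => ⟨⟨hw, (not_le.1 fun e => k (.inl e)).le⟩,
      not_lt.1 fun e => k (.inr ⟨e.trans (by nlinarith), le_trans ?_ e.le⟩)⟩)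
    fun w hw => h.gf w hw.1.1 (norm_pos_iff.1 (lt_of_lt_of_le (by positivity) hw.2))).imp
      fun T hT w hw => ?_
  rotate_right
  · have := hT w hw
    rw [it_eq] at this
    exact this.symm.imp_left And.left
  · rcases k with k | ⟨k, k'⟩
    · exact .inl ((g_f h hw).trans k)
    obtain ⟨x, y⟩ := w
    dsimp only at k k' ⊢
    rw [mem_setOf_eq, f_lin h x (by linarith)]
    dsimp only
    have e : ‖y - G.H x y - G.ι x (G.ι' x (y - G.H x y))‖ ≤ t * G.r := by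
      refine le_trans (le_of_eq (congrArg _ ?_)) ((contr h x (ker h x y)).trans k')
      simp only [map_sub, h.HP]; abel
    refine or_iff_not_imp_right.2 fun n => ?_
    have n1 : G.r ≤ ‖y - G.H x y‖ := not_lt.1 fun l => n ⟨l, e⟩
    have n2 : ‖y - G.H x y‖ ≤ 2 * G.r := (norm_sub_le _ _).trans (by linarith [h.Hn x y])
    rw [(h.ln x _ n2).2.1]
    have p := pyth h x (y - G.H x y)
    have q := form h x (y - G.H x y)
    have u := pow_le_pow_left₀ (norm_nonneg _) e 2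
    have v := pow_le_pow_left₀ r0.le n1 2
    have s : (t * G.r) ^ 2 * (1 + 2 * G.a) ≤ G.a * G.r ^ 2 := by
      have := mul_le_mul (mul_le_mul t1.le t2 (by positivity) zero_le_one) (le_refl (G.r ^ 2))
        (by positivity) (by positivity)
      nlinarith
    nlinarith [mul_le_mul_of_nonneg_left u a0.le, mul_le_mul_of_nonneg_left v a0.le]
  · exact (abs_le_of_sq_le_sq' (by nlinarith [pyth h w.1 w.2, sq_nonneg ‖G.ι w.1 (G.ι' w.1 w.2)‖])
      (norm_nonneg _)).2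

theorem es [CompactSpace X] [FiniteDimensional ℝ E₁] {η R : ℝ} (η0 : 0 < η) (hR : R₀ ≤ R) :
    ∃ T, ∀ w ∈ G.Dm, G.g w ≤ -η → R ≤ ‖G.p₁ w.1 (G.fi T w)‖ := by
  have := FiniteDimensional.proper_real E₁
  have pc : Continuous fun w : X × E₁ => ‖G.p₁ w.1 w.2‖ :=
    ((h.pc.comp continuous_fst).clm_apply continuous_snd).norm
  refine (drop (continuous_fst.prodMk h.fc) h.gc (I := G.Dm ∩ {w | G.g w ≤ -η})
    (S := {w | R ≤ ‖G.p₁ w.1 w.2‖})
    ((isCompact_univ.prod (isCompact_closedBall (0 : E₁) (M + R))).inter_right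
      (h.dc.inter (isClosed_le h.gc continuous_const : IsClosed {w | G.g w ≤ -η})))
    (fun w hw => ⟨h.fD w, (g_f h hw.1).trans hw.2⟩)
    (fun w hw k => le_trans k (h.j1 w hw.1 ▸ h.jx 1 ⟨zero_le_one, le_rfl⟩ w hw.1 (hR.trans k)))
    (fun w hw k => ⟨⟨trivial, mem_closedBall_zero_iff.2 ?_⟩, hw⟩)
    fun w hw => h.gf w hw.2.1 fun e => ?_).imp fun T hT w hw k => ?_
  rotate_right
  · have := hT w ⟨hw, k⟩
    rwa [it_eq] at this
  · have a := norm_add_le (w.2 - G.p₁ w.1 w.2) (G.p₁ w.1 w.2)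
    rw [sub_add_cancel] at a
    linarith [h.db w hw.1, not_le.1 (show ¬ R ≤ ‖G.p₁ w.1 w.2‖ from k)]
  · obtain ⟨x, y⟩ := w
    obtain rfl : y = 0 := e
    have a := (h.ln x 0 (by simpa using h.hr.le)).2.1
    have b : G.g (x, 0) ≤ -η := hw.2.2
    rw [inner_zero_right] at a
    linarith

end Di

theorem dich : DICH := by
  intro X E₁ E₂ _ _ _ _ _ _ _ _ _ G c κ R₀ M h
  have a0 := h.ha
  have r0 := h.hr
  obtain ⟨T, hT⟩ := Di.di h
  obtain ⟨B, hB⟩ := (h.gk (G.a * G.r ^ 2 / 4)).exists_bound_of_continuousOn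
    continuous_snd.continuousOn
  obtain ⟨T', hT'⟩ := Di.es h (η := G.a * G.r ^ 2 / 4 / 2) (by positivity)
    (le_max_left R₀ (max (2 * G.r) (max 1 (B + 1))))
  refine ⟨T, T', G.a * G.r ^ 2 / 4, _, by positivity, by nlinarith [mul_pos a0 (pow_pos r0 2)],
    le_max_left _ _, le_max_of_le_right (le_max_left _ _),
    le_max_of_le_right (le_max_of_le_right (le_max_left _ _)), fun w hw k => not_lt.1 fun e => ?_,
    hT, fun w hw k => hT' w hw (by rwa [neg_div] at k)⟩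
  have a := hB w ⟨hw, e.le⟩
  have b := (le_max_of_le_right (le_max_of_le_right (le_max_right _ _))).trans k
  linarith [h.pn w.1 w.2]

end Crest.Agent.N218.Rd
end
end

-- ▼ part N218/Rd/H1a

/-! Row 218, RED (helper48): the clauses on `h₁`. -/

set_option autoImplicit false
set_option linter.unusedSectionVars false
open Set Topology Metric
open scoped InnerProductSpace

noncomputable section

namespace Crest.Agent.N218.Rd
open Pm

namespace Ha
variable {X E₁ E₂ : Type} [TopologicalSpace X] [NormedAddCommGroup E₁] [InnerProductSpace ℝ E₁]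
  [NormedAddCommGroup E₂] [InnerProductSpace ℝ E₂] {G : Rg X E₁ E₂} {c κ R₀ M : ℝ}
  (h : G.Ok c κ R₀ M)
include h

theorem it_le {t : ℝ} (ht : t ≤ 0) (w : X × E₁) : ∀ n, G.it t w n = w.2
  | 0 => rfl
  | n + 1 => by
    rw [Rg.it, cl_of_le (by linarith [(n.cast_nonneg : (0 : ℝ) ≤ n)]), h.j0, it_le ht w n]

theorem it_mem (t : ℝ) {w : X × E₁} (hw : w ∈ G.Dm) : ∀ n, (w.1, G.it t w n) ∈ G.Dm
  | 0 => hw
  | n + 1 => h.jD _ (cl_mem _) _ (it_mem t hw n)

theorem it_ge {t : ℝ} {w : X × E₁} (hw : w ∈ G.Dm) : ∀ n : ℕ, (n : ℝ) ≤ t → G.it t w n = G.fi n w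
  | 0, _ => rfl
  | n + 1, e => by
    push_cast at e
    rw [Rg.it, cl_of_ge (by linarith), h.j1 _ (it_mem h t hw n), it_ge hw n (by linarith), Rg.fi,
      Rg.fi, Function.iterate_succ_apply']

theorem it_p (t : ℝ) {w : X × E₁} (hw : w ∈ G.Dm) (hR : R₀ ≤ ‖G.p₁ w.1 w.2‖) :
    ∀ n, ‖G.p₁ w.1 w.2‖ ≤ ‖G.p₁ w.1 (G.it t w n)‖
  | 0 => le_rfl
  | n + 1 => (it_p t hw hR n).trans
      (h.jx _ (cl_mem _) _ (it_mem h t hw n) (hR.trans (it_p t hw hR n)))

theorem it_ct : ∀ n, Continuous fun a : ℝ × X × E₁ => G.it a.1 a.2 n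
  | 0 => by simp only [Rg.it]; fun_prop
  | n + 1 => by
    have := it_ct n
    simp only [Rg.it]
    exact h.jc.comp (by fun_prop)

theorem p_S (x : X) (l : ℝ) (y : E₁) : G.p₁ x (G.S x l y) = l • G.p₁ x y := by
  rw [Rg.S, map_add, map_smul, h.pi]; module

theorem r_S (x : X) (l : ℝ) (y : E₁) : G.S x l y - G.p₁ x (G.S x l y) = y - G.p₁ x y := by
  rw [p_S h, Rg.S]; module

theorem i_P (x : X) (y : E₁) : G.ι' x (y - G.P x y) = 0 := by
  refine ext_inner_left ℝ fun z => ?_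
  have e : ⟪G.ι x z, G.ι x (G.ι' x y)⟫_ℝ = ⟪G.ι x z, y⟫_ℝ := by
    rw [real_inner_comm, h.ad, real_inner_comm, ← h.ad, h.iii]
  rw [inner_zero_right, ← h.ad, inner_sub_right]
  exact sub_eq_zero.2 e.symm

theorem orth (x : X) (y y' : E₁) : ⟪G.P x y', y - G.P x y⟫_ℝ = 0 := by
  rw [show G.P x y' = G.ι x (G.ι' x y') from rfl, h.ad, i_P h, inner_zero_right]

theorem nrm (x : X) (y : E₁) : ‖G.P x y‖ ≤ ‖y‖ ∧ ‖y - G.P x y‖ ≤ ‖y‖ := by
  have := norm_add_sq_real (G.P x y) (y - G.P x y)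
  rw [orth h, add_sub_cancel] at this
  exact ⟨le_of_sq_le_sq (by nlinarith [sq_nonneg ‖y - G.P x y‖]) (norm_nonneg _),
    le_of_sq_le_sq (by nlinarith [sq_nonneg ‖G.P x y‖]) (norm_nonneg _)⟩

theorem q_eq (x : X) (y : E₁) (a l : ℝ) :
    ⟪G.H x (a • (y - G.P x y) + l • G.P x y), a • (y - G.P x y) + l • G.P x y⟫_ℝ =
      a ^ 2 * ⟪G.H x (y - G.P x y), y - G.P x y⟫_ℝ + l ^ 2 * ⟪G.H x (G.P x y), G.P x y⟫_ℝ := by
  have e : ⟪G.H x (G.P x y), y - G.P x y⟫_ℝ = 0 := by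
    rw [show G.H x (G.P x y) = G.P x (G.H x y) from h.HP x y, orth h]
  have e' : ⟪G.H x (y - G.P x y), G.P x y⟫_ℝ = 0 := by rw [h.Hs, real_inner_comm, e]
  rw [map_add, map_smul, map_smul]
  simp only [inner_add_left, inner_add_right, real_inner_smul_left, real_inner_smul_right, e, e']
  ring

theorem q_le (x : X) (y : E₁) {a l : ℝ} (a0 : 0 ≤ a) (a1 : a ≤ 1) (l1 : 1 ≤ l) :
    ⟪G.H x (a • (y - G.P x y) + l • G.P x y), a • (y - G.P x y) + l • G.P x y⟫_ℝ ≤
      ⟪G.H x y, y⟫_ℝ ∧ -(1 / 2 * ‖G.P x y‖ ^ 2) ≤ ⟪G.H x y, y⟫_ℝ := by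
  have e := q_eq h x y 1 1
  rw [one_smul, one_smul, sub_add_cancel] at e
  have u := h.Hp x _ (i_P h x y)
  have v : ⟪G.H x (G.P x y), G.P x y⟫_ℝ ≤ 0 :=
    (h.Hm x _).trans (neg_nonpos.2 (mul_nonneg h.ha.le (sq_nonneg _)))
  have w := (abs_le.1 (abs_real_inner_le_norm (G.H x (G.P x y)) (G.P x y))).1
  have w' := mul_le_mul_of_nonneg_right (h.Hn x (G.P x y)) (norm_nonneg (G.P x y))
  rw [q_eq h, e]
  constructor
  · nlinarith [mul_nonneg u (by nlinarith : 0 ≤ 1 - a ^ 2),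
      mul_nonneg (neg_nonneg.2 v) (by nlinarith : 0 ≤ l ^ 2 - 1)]
  · nlinarith

omit h in
theorem chi_lt {η t : ℝ} (h0 : 0 < η) : χ η t < 1 ↔ -η < t := by
  rw [χ, cl, max_lt_iff, min_lt_iff, sub_lt_iff_lt_add, div_lt_iff₀ h0]
  exact ⟨fun a => by linarith [a.2.resolve_left (lt_irrefl _)],
    fun a => ⟨one_pos, .inr (by linarith)⟩⟩

omit h in
theorem chi_ne {η t : ℝ} (h0 : 0 < η) (e : χ η t ≠ 0) : t ≤ -η / 2 := by
  refine le_of_not_gt fun a => e (cl_of_le ?_)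
  rw [sub_nonpos, div_le_one h0]; linarith

omit h in
theorem th_ge {η β t : ℝ} (b : 0 ≤ β) (e : β * χ η t < 1) : 1 ≤ th η β t :=
  (one_le_inv₀ (sub_pos.2 e)).2 (sub_le_self _ (mul_nonneg b (cl_mem _).1))

variable {T T' : ℕ} {η R₁ : ℝ} {x : X} {s : ℝ} {y : E₁}

theorem Yt_lo (hs : s ≤ 1 / 4) : G.Yt T T' ((x, s), y) = G.ph ((x, 4 * s), y) := by
  rw [Rg.Yt, cl_of_le (by linarith), it_le h (by simp)]

theorem Yt_f (hs : 1 / 4 ≤ s) :
    G.Yt T T' ((x, s), y) = G.it ((T + T') * cl (4 * s - 1)) (x, G.f (x, y)) T := by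
  rw [Rg.Yt, (h.en x (4 * s) y (by linarith)).2]

theorem Yt_mem (hs : 1 / 4 ≤ s) : (x, G.Yt T T' ((x, s), y)) ∈ G.Dm := by
  rw [Yt_f h hs]; exact it_mem h _ (h.fD (x, y)) T

theorem Yt_hi (hs : 1 / 2 ≤ s) : G.Yt T T' ((x, s), y) = G.F T (x, y) := by
  rw [Yt_f h (by linarith), cl_of_ge (by linarith), it_ge h (h.fD (x, y)) T (by simp)]; rfl

omit h in
theorem Wt_lo (hs : s ≤ 3 / 4) : G.Wt T T' η ((x, s), y) = G.Yt T T' ((x, s), y) := by
  rw [Rg.Wt, cl_of_le (by linarith)]; simp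

theorem hi (k : G.Cst R₀ T T' η R₁) (hs : 3 / 4 ≤ s) (ho : ((x, s), y) ∈ (G.rd T T' η).O₁) :
    ‖G.Yt T T' ((x, s), y)‖ < G.r ∧ G.m T T' η ((x, s), y) ≤ G.θ T T' η ((x, s), y) ∧
      (x, G.Wt T T' η ((x, s), y)) ∈ G.Dm ∧
      G.g (x, G.Wt T T' η ((x, s), y)) ≤ G.g (x, G.Yt T T' ((x, s), y)) ∧
      (G.g (x, G.Yt T T' ((x, s), y)) ≤ -η / 2 →
        G.θ T T' η ((x, s), y) * (2 * η / G.r ^ 2) ≤ G.m T T' η ((x, s), y)) := by
  have t1 : 1 ≤ G.θ T T' η ((x, s), y) := th_ge (cl_mem _).1 ho.2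
  have o := ho.2
  dsimp only at o
  rw [cl_of_ge (by linarith), one_mul, chi_lt k.η0] at o
  have n : ‖G.Yt T T' ((x, s), y)‖ < G.r := by
    rw [Yt_hi h (by linarith)] at o ⊢
    exact (k.di _ (h.fD (x, y))).resolve_right o.not_ge
  have eW : G.Wt T T' η ((x, s), y) = (1 - cl (4 * s - 3)) • (G.Yt T T' ((x, s), y) -
      G.P x (G.Yt T T' ((x, s), y))) + (1 + cl (4 * s - 3) * (G.θ T T' η ((x, s), y) /
        G.m T T' η ((x, s), y) - 1)) • G.P x (G.Yt T T' ((x, s), y)) := by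
    rw [Rg.Wt]; module
  have m1 : 1 ≤ G.m T T' η ((x, s), y) := le_max_left _ _
  have m2 : G.θ T T' η ((x, s), y) * ‖G.P x (G.Yt T T' ((x, s), y))‖ / G.r ≤
      G.m T T' η ((x, s), y) := by
    refine le_trans (le_of_eq ?_) (le_max_right _ _)
    rw [norm_smul, Real.norm_of_nonneg (by linarith)]
  have m3 : G.m T T' η ((x, s), y) ≤ G.θ T T' η ((x, s), y) := max_le t1 (by
    rw [norm_smul, Real.norm_of_nonneg (by linarith), div_le_iff₀ h.hr]
    exact mul_le_mul_of_nonneg_left ((nrm h x _).1.trans n.le) (by linarith))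
  obtain ⟨n1, n2⟩ := nrm h x (G.Yt T T' ((x, s), y))
  have r0 := h.hr
  obtain ⟨σ0, σ1⟩ := cl_mem (4 * s - 3)
  rw [eW]
  generalize G.θ T T' η ((x, s), y) = θ at *
  generalize G.m T T' η ((x, s), y) = m at *
  generalize G.Yt T T' ((x, s), y) = Y at *
  generalize cl (4 * s - 3) = σ at *
  have d1 : 1 ≤ θ / m := (one_le_div (by linarith)).2 m3
  have d2 : θ / m * ‖G.P x Y‖ ≤ G.r := by
    rw [div_le_iff₀ r0] at m2
    rw [div_mul_eq_mul_div, div_le_iff₀ (by linarith)]; linarith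
  have l1 : 1 ≤ 1 + σ * (θ / m - 1) := by nlinarith
  have nW : ‖(1 - σ) • (Y - G.P x Y) + (1 + σ * (θ / m - 1)) • G.P x Y‖ ≤ 2 * G.r := by
    refine (norm_add_le _ _).trans ?_
    rw [norm_smul, norm_smul, Real.norm_of_nonneg (by linarith), Real.norm_of_nonneg (by linarith)]
    nlinarith [mul_le_mul_of_nonneg_left d2 σ0, mul_le_mul_of_nonneg_left (n1.trans n.le)
      (sub_nonneg.2 σ1), mul_le_mul_of_nonneg_left (n2.trans n.le) (sub_nonneg.2 σ1)]
  obtain ⟨q1, q2⟩ := q_le h x Y (sub_nonneg.2 σ1) (by linarith) l1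
  have gY := (h.ln x Y (by linarith)).2.1
  refine ⟨n, m3, (h.ln x _ nW).1, by rw [(h.ln x _ nW).2.1, gY]; linarith, fun e => ?_⟩
  refine le_trans ?_ m2
  rw [mul_div_assoc θ]
  refine mul_le_mul_of_nonneg_left ?_ (by linarith)
  rw [div_le_div_iff₀ (by positivity) r0]
  have : 2 * η ≤ ‖G.P x Y‖ * G.r := by
    nlinarith [mul_le_mul_of_nonneg_left (n1.trans n.le) (norm_nonneg (G.P x Y))]
  nlinarith

/-- the scaling factor -/
abbrev lf (G : Rg X E₁ E₂) (T T' : ℕ) (η : ℝ) (w : (X × ℝ) × E₁) : ℝ :=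
  (1 - cl (4 * w.1.2 - 3)) * G.θ T T' η w + cl (4 * w.1.2 - 3) * G.m T T' η w

omit h in
theorem h1_eq (w : (X × ℝ) × E₁) : (G.rd T T' η).h₁ w = G.S w.1.1 (lf G T T' η w)
    (G.it ((T + T') * cl (4 * w.1.2 - 1) - T) (w.1.1, G.Wt T T' η w) T') := rfl

omit h in
theorem lf_ge {w : (X × ℝ) × E₁} (ho : w ∈ (G.rd T T' η).O₁) : 1 ≤ lf G T T' η w := by
  have t1 : 1 ≤ G.θ T T' η w := th_ge (cl_mem _).1 ho.2
  have m1 : 1 ≤ G.m T T' η w := le_max_left _ _
  obtain ⟨σ0, σ1⟩ := cl_mem (4 * w.1.2 - 3)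
  nlinarith

theorem Wt_mem (k : G.Cst R₀ T T' η R₁) (hs : 1 / 4 ≤ s) (ho : ((x, s), y) ∈ (G.rd T T' η).O₁) :
    (x, G.Wt T T' η ((x, s), y)) ∈ G.Dm := by
  rcases le_total s (3 / 4) with a | a
  · rw [Wt_lo a]; exact Yt_mem h hs
  · exact (hi h k a ho).2.2.1

theorem lo (hs : s ≤ 1 / 4) : (((x, s), y) ∈ (G.rd T T' η).O₁ ↔ ((x, 4 * s), y) ∈ G.O) ∧
    (G.rd T T' η).h₁ ((x, s), y) = G.ph ((x, 4 * s), y) := by
  have a : cl (4 * s - 2) = 0 := cl_of_le (by linarith)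
  refine ⟨⟨fun b => b.1, fun b => ⟨b, by dsimp only; rw [a]; simp⟩⟩, ?_⟩
  rw [h1_eq, it_le h (by dsimp only; rw [cl_of_le (by linarith)]; simp), Wt_lo (by linarith),
    Yt_lo h hs, lf, cl_of_le (by linarith), Rg.θ, a]
  simp [th, Rg.S]

theorem th_bd (k : G.Cst R₀ T T' η R₁) (hs : 1 / 4 ≤ s) (ho : ((x, s), y) ∈ (G.rd T T' η).O₁) :
    G.θ T T' η ((x, s), y) * min 1 (2 * η / G.r ^ 2) ≤ max 1 ‖(G.rd T T' η).h₁ ((x, s), y)‖ := by
  have t1 : 1 ≤ G.θ T T' η ((x, s), y) := th_ge (cl_mem _).1 ho.2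
  by_cases e : cl (4 * s - 2) * χ η (G.g (x, G.Yt T T' ((x, s), y))) = 0
  · rw [Rg.θ, th, e]
    simp
  obtain ⟨e1, e2⟩ := mul_ne_zero_iff.1 e
  have s2 : 1 / 2 ≤ s := le_of_not_gt fun a => e1 (cl_of_le (by linarith))
  have g := chi_ne k.η0 e2
  have w := Wt_mem h k hs ho
  have key : G.g (x, G.Wt T T' η ((x, s), y)) ≤ -η / 2 →
      lf G T T' η ((x, s), y) ≤ max 1 ‖(G.rd T T' η).h₁ ((x, s), y)‖ := fun a => by
    refine le_max_of_le_right (le_trans ?_ (h.pn x _))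
    have l := lf_ge ho
    rw [h1_eq, p_S h, norm_smul, Real.norm_of_nonneg (by linarith),
      it_ge h w T' (by dsimp only; rw [cl_of_ge (by linarith)]; simp)]
    exact le_mul_of_one_le_right (by linarith) (k.R1.trans (k.es _ w a))
  rcases le_total s (3 / 4) with a | a
  · refine le_trans ?_ (key (by rwa [Wt_lo a]))
    rw [lf, cl_of_le (by linarith), sub_zero, one_mul, zero_mul, add_zero]
    exact mul_le_of_le_one_right (by linarith) (min_le_left _ _)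
  · obtain ⟨-, b1, -, b2, b3⟩ := hi h k a ho
    refine le_trans ?_ (key (b2.trans g))
    obtain ⟨σ0, σ1⟩ := cl_mem (4 * s - 3)
    have := (mul_le_mul_of_nonneg_left (min_le_right 1 _) (by linarith)).trans (b3 g)
    rw [lf]
    nlinarith

/-- the part of the domain that comes from `O` -/
abbrev O' (G : Rg X E₁ E₂) : Set ((X × ℝ) × E₁) := {w | ((w.1.1, 4 * w.1.2), w.2) ∈ G.O}

theorem ct_Y : ContinuousOn (G.Yt T T') (O' G) := by
  have a : ContinuousOn (fun w : (X × ℝ) × E₁ => G.ph ((w.1.1, 4 * w.1.2), w.2)) (O' G) :=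
    h.hp.ct.comp (by fun_prop) fun _ a => a
  exact (it_ct h T).comp_continuousOn (f := fun w : (X × ℝ) × E₁ =>
    ((T + T') * cl (4 * w.1.2 - 1), w.1.1, G.ph ((w.1.1, 4 * w.1.2), w.2))) (by fun_prop)

theorem ct_c : ContinuousOn (fun w : (X × ℝ) × E₁ =>
    cl (4 * w.1.2 - 2) * χ η (G.g (w.1.1, G.Yt T T' w))) (O' G) := by
  have a := ct_Y h (T := T) (T' := T')
  have b : Continuous fun w => χ η (G.g w) := by
    have := h.gc
    unfold χ; fun_prop
  exact (Continuous.continuousOn (by fun_prop)).mul (b.comp_continuousOn (by fun_prop))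

theorem ct_h : ContinuousOn (G.rd T T' η).h₁ (G.rd T T' η).O₁ := by
  have a : ContinuousOn (G.Yt T T') (G.rd T T' η).O₁ := (ct_Y h).mono fun _ a => a.1
  have b : ContinuousOn (G.θ T T' η) (G.rd T T' η).O₁ :=
    (continuousOn_const.sub ((ct_c h).mono fun _ a => a.1)).inv₀ fun _ a => (sub_pos.2 a.2).ne'
  have c1 := h.ic
  have c2 := h.ic'
  have c3 := h.pc
  have p : ContinuousOn (fun w => G.P w.1.1 (G.Yt T T' w)) (G.rd T T' η).O₁ := by
    change ContinuousOn (fun w : (X × ℝ) × E₁ => G.ι w.1.1 (G.ι' w.1.1 (G.Yt T T' w))) _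
    fun_prop
  have m : ContinuousOn (G.m T T' η) (G.rd T T' η).O₁ :=
    (continuous_const.max continuous_id).comp_continuousOn ((b.smul p).norm.div_const _)
  have d := b.div m fun w _ => (one_pos.trans_le (le_max_left _ _)).ne'
  have c4 : ∀ r : ℝ, ContinuousOn (fun w : (X × ℝ) × E₁ => cl (4 * w.1.2 - r))
    (G.rd T T' η).O₁ := fun r => Continuous.continuousOn (by fun_prop)
  have W : ContinuousOn (G.Wt T T' η) (G.rd T T' η).O₁ :=
    (a.sub ((c4 3).smul (a.sub p))).add (((c4 3).mul (d.sub continuousOn_const)).smul p)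
  have I := (it_ct h T').comp_continuousOn (f := fun w : (X × ℝ) × E₁ =>
    ((T + T') * cl (4 * w.1.2 - 1) - T, w.1.1, G.Wt T T' η w))
    (((continuousOn_const.mul (c4 1)).sub continuousOn_const).prodMk
      (continuous_fst.fst.continuousOn.prodMk W))
  have l : ContinuousOn (lf G T T' η) (G.rd T T' η).O₁ :=
    ((continuousOn_const.sub (c4 3)).mul b).add ((c4 3).mul m)
  exact I.add ((l.sub continuousOn_const).smul
    ((c3.comp continuous_fst.fst).continuousOn.clm_apply I))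

omit h in
theorem cpt [T2Space X] {K O : Set ((X × ℝ) × E₁)} {f : (X × ℝ) × E₁ → E₁} {R : ℝ} (hK : IsCompact K)
    (hf : ContinuousOn f K) (kO : K ⊆ O) (h : {w ∈ O | |w.1.2| ≤ R ∧ ‖f w‖ ≤ R ∧ ‖w.2‖ ≤ R} ⊆ K) :
    IsCompact {w ∈ O | |w.1.2| ≤ R ∧ ‖f w‖ ≤ R ∧ ‖w.2‖ ≤ R} := by
  have C : Continuous fun w : (X × ℝ) × E₁ => max |w.1.2| ‖w.2‖ := by fun_prop
  have Z := (hf.norm.preimage_isClosed_of_isClosed hK.isClosed
    (isClosed_Iic (a := R))).inter (isClosed_le C (continuous_const (y := R)))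
  convert hK.of_isClosed_subset Z fun _ a => a.1.1 using 1
  ext w
  exact ⟨fun a => ⟨⟨h a, a.2.2.1⟩, max_le a.2.1 a.2.2.2⟩,
    fun a => ⟨kO a.1.1, (le_max_left _ _).trans a.2, a.1.2, (le_max_right _ _).trans a.2⟩⟩

theorem cp [CompactSpace X] [T2Space X] [FiniteDimensional ℝ E₁] (k : G.Cst R₀ T T' η R₁) (R : ℝ) :
    IsCompact {w ∈ (G.rd T T' η).O₁ | |w.1.2| ≤ R ∧ ‖(G.rd T T' η).h₁ w‖ ≤ R ∧ ‖w.2‖ ≤ R} := by
  let e : (X × ℝ) × E₁ ≃ₜ (X × ℝ) × E₁ := ((Homeomorph.refl X).prodCongr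
    (Homeomorph.mulLeft₀ (4 : ℝ) (by norm_num))).prodCongr (Homeomorph.refl E₁)
  have K1 := (e.isCompact_preimage.2 (h.hp.cp (4 * |R|))).inter_right
    (isClosed_le (f := fun w : (X × ℝ) × E₁ => w.1.2) (g := fun _ => 1 / 4) (by fun_prop)
      (by fun_prop))
  have B : IsCompact (((univ : Set X) ×ˢ Icc (1 / 4 : ℝ) R) ×ˢ closedBall (0 : E₁) R) :=
    (isCompact_univ.prod isCompact_Icc).prod (isCompact_closedBall _ _)
  have bO : ((univ : Set X) ×ˢ Icc (1 / 4 : ℝ) R) ×ˢ closedBall (0 : E₁) R ⊆ O' G :=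
    fun w a => (h.en _ _ _ (by linarith [a.1.2.1])).1
  have e0 : 0 < min 1 (2 * η / G.r ^ 2) / max 1 R := by
    have := k.η0
    have := h.hr
    positivity
  have K2 := B.of_isClosed_subset (((ct_c h (T := T) (T' := T') (η := η)).mono
    bO).preimage_isClosed_of_isClosed B.isClosed
      (isClosed_Iic (a := 1 - min 1 (2 * η / G.r ^ 2) / max 1 R))) inter_subset_left
  refine cpt (K1.union K2) ((ct_h h).mono ?_) ?_ ?_
  iterate 2
    rintro w (a | a)
    · exact (lo h a.2).1.2 a.1.1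
    · exact ⟨bO a.1, lt_of_le_of_lt a.2 (sub_lt_self _ e0)⟩
  rintro ⟨⟨x, s⟩, y⟩ ⟨a, b, d, f⟩
  have r := le_abs_self R
  have r0 := abs_nonneg R
  dsimp only at b d f
  rcases le_total s (1 / 4) with u | u
  · refine .inl ⟨⟨a.1, ?_, ?_, ?_⟩, u⟩
    · change |4 * s| ≤ _
      rw [abs_mul, abs_of_pos (by norm_num : (0 : ℝ) < 4)]; linarith
    · rw [(lo h u).2] at d
      exact d.trans (by linarith)
    · exact f.trans (by linarith)
  · refine .inr ⟨⟨⟨trivial, u, (le_abs_self s).trans b⟩, mem_closedBall_zero_iff.2 f⟩, ?_⟩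
    have t := (th_bd h k u a).trans (max_le_max_left 1 d)
    rw [Rg.θ, th, inv_mul_le_iff₀ (sub_pos.2 a.2), ← div_le_iff₀ (by positivity)] at t
    exact le_sub_comm.1 t

theorem bd (k : G.Cst R₀ T T' η R₁) (ho : ((x, s), y) ∈ (G.rd T T' η).O₁) :
    ‖(G.rd T T' η).h₁ ((x, s), y) - G.p₁ x ((G.rd T T' η).h₁ ((x, s), y))‖ ≤
      M + c * ‖y - G.p₁ x y‖ := by
  rcases le_total s (1 / 4) with u | u
  · rw [(lo h u).2]; exact h.hp.bd _ ho.1
  · rw [h1_eq, r_S h]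
    exact (h.db _ (it_mem h _ (Wt_mem h k u ho) T')).trans
      (le_add_of_nonneg_right (mul_nonneg ((norm_nonneg _).trans (h.Cn x)) (norm_nonneg _)))

theorem ex (k : G.Cst R₀ T T' η R₁) (ho : ((x, s), y) ∈ (G.rd T T' η).O₁) (hR : R₁ ≤ ‖G.p₁ x y‖) :
    (1 + κ) * ‖G.p₁ x y‖ ≤ ‖G.p₁ x ((G.rd T T' η).h₁ ((x, s), y))‖ := by
  have a := h.hp.ex _ ho.1 (k.R0.trans hR)
  rcases le_total s (1 / 4) with u | u
  · rwa [(lo h u).2]
  dsimp only at a
  rw [(h.en x (4 * s) y (by linarith)).2] at a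
  have a0 : R₁ ≤ ‖G.p₁ x (G.f (x, y))‖ := by nlinarith [h.hκ, norm_nonneg (G.p₁ x y)]
  have b : ‖G.p₁ x (G.f (x, y))‖ ≤ ‖G.p₁ x (G.Yt T T' ((x, s), y))‖ := by
    rw [Yt_f h u]; exact it_p h _ (h.fD (x, y)) (k.R0.trans a0) T
  rcases le_total s (3 / 4) with v | v
  · have l := lf_ge ho
    rw [h1_eq, p_S h, norm_smul, Real.norm_of_nonneg (by linarith), Wt_lo v]
    exact ((a.trans b).trans (it_p h _ (Yt_mem h u) (k.R0.trans (a0.trans b)) T')).trans
      (le_mul_of_one_le_left (norm_nonneg _) l)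
  · linarith [(hi h k v ho).1, h.pn x (G.Yt T T' ((x, s), y)), k.Rr, h.hr]

theorem top (k : G.Cst R₀ T T' η R₁) (hs : 1 ≤ s) :
    (((x, s), y) ∈ (G.rd T T' η).O₁ ↔ (x, y) ∈ (G.rd T T' η).Ov) ∧ ((x, y) ∈ (G.rd T T' η).Ov →
      (G.rd T T' η).h₁ ((x, s), y) = (G.rd T T' η).u (x, (G.rd T T' η).v (x, y))) := by
  have a : ((x, s), y) ∈ (G.rd T T' η).O₁ ↔ (x, y) ∈ (G.rd T T' η).Ov := by
    refine (and_iff_right (h.en x (4 * s) y (by linarith)).1).trans ?_
    dsimp only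
    rw [cl_of_ge (by linarith), one_mul, chi_lt k.η0, Yt_hi h (by linarith)]; rfl
  refine ⟨a, fun o => ?_⟩
  have w := Wt_mem h k (by linarith) (a.2 o)
  have e : G.ι x ((G.rd T T' η).v (x, y)) =
      G.θ T T' η ((x, s), y) • G.P x (G.Yt T T' ((x, s), y)) := by
    rw [Rg.θ, cl_of_ge (by linarith), Yt_hi h (by linarith)]
    exact map_smul _ _ _
  rw [h1_eq, it_ge h w T' (by dsimp only; rw [cl_of_ge (by linarith)]; simp), lf, Rg.Wt,
    cl_of_ge (by linarith)]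
  change _ = G.S x (G.mx (G.ι x _)) (G.fi T' (x, (G.mx (G.ι x _))⁻¹ • G.ι x _))
  rw [e, smul_smul, ← div_eq_inv_mul]
  congr 3
  · simp [Rg.m]
  · change _ = (_ / G.m T T' η ((x, s), y)) • _
    module
end Ha

/-- **H1A** -/
theorem h1a : H1A := by
  intro X E₁ E₂ _ _ _ _ _ _ _ _ _ G c κ R₀ M h T T' η R₁ k
  refine ⟨⟨?_, Ha.ct_h h, Ha.cp h k, fun w o => Ha.bd h k o, fun w o a => ?_, fun x s y a => ?_⟩,
    fun x s y => Ha.top h k, fun x s y => Ha.lo h, fun x s y a => ?_⟩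
  · exact (Ha.ct_c h).isOpen_inter_preimage (h.hp.op.preimage (by fun_prop)) isOpen_Iio
  · exact (mul_le_mul_of_nonneg_right (add_le_add_right (min_le_left _ _) 1)
      (norm_nonneg _)).trans (Ha.ex h k o a)
  · obtain ⟨u, v⟩ := h.hp.ln x (4 * s) y (by linarith)
    exact ⟨(Ha.lo h (by linarith)).1.2 u, (Ha.lo h (by linarith)).2.trans v⟩
  · obtain ⟨u, v⟩ := h.en x s y a
    obtain ⟨u', v'⟩ := h.en x 1 y le_rfl
    exact ⟨iff_of_true u u', v.trans v'.symm⟩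

end Crest.Agent.N218.Rd
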