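import Crest.Agent.N218.P.PreP
import Crest.Agent.N218.P.Fam
import Crest.Agent.N218.A.TotI_Mg
import Crest.Agent.N218.P.Bo
import Crest.Agent.N218.P.Fr_Mg
import Crest.Agent.N218.P.Crit
import Crest.Agent.N218.P.Mz
import Crest.Agent.N218.P.Desc
import Crest.Agent.N218.P.Isop
import Crest.Agent.N218.P.Path
import Crest.Agent.N218.Rd.Defs
import Crest.Agent.N218.Pm.Kit1
import Crest.Agent.N218.Pm.Adm0

-- ▼ part N218/P/A4
section

/-! # Row 218, block A4 (helper77): closure -/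

namespace Crest.Agent.N218.P

theorem a4' (h : RET) : A4 :=
  a4_of (bo_ sm) fam (pre Sh.totI mz (reg sm (crit sm)) h (body sm) fr desc)

theorem a4 : A4 := a4' ret1


end Crest.Agent.N218.P
end

-- ▼ part N218/Rd/Uv
section

/-! Row 218, RED: the clauses on `u`, `v` (helper36). -/

set_option autoImplicit false
set_option linter.unusedVariables false
set_option linter.unusedSectionVars false
open Set Topology
open scoped InnerProductSpace

noncomputable section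

namespace Crest.Agent.N218.Rd.Uv
open Pm

theorem nn_sym {E : Type} [NormedAddCommGroup E] [InnerProductSpace ℝ E] (L : E →L[ℝ] E)
    (h : ∀ y y', ⟪L y, y'⟫_ℝ = ⟪y, L y'⟫_ℝ) : Nn L := by
  intro c z j hz hj
  have key : ∀ n i, ⟪z (i + n), z 0⟫_ℝ = ⟪z i, z n⟫_ℝ := by
    intro n
    induction n with
    | zero => intro i; rfl
    | succ n ih =>
      intro i
      have e : i + (n + 1) = (i + 1) + n := by ring
      rw [e, ih, hz i, hz n, real_inner_smul_left, real_inner_smul_right, h]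
  have k := key j j
  rw [← two_mul, hj, inner_neg_left, real_inner_self_eq_norm_sq, real_inner_self_eq_norm_sq] at k
  have : ‖z 0‖ ^ 2 ≤ 0 := by nlinarith [sq_nonneg ‖z j‖]
  exact norm_eq_zero.1 (pow_eq_zero_iff two_ne_zero |>.1 (le_antisymm this (sq_nonneg _)))

theorem pow_sym {E : Type} [NormedAddCommGroup E] [InnerProductSpace ℝ E] (L : E →L[ℝ] E)
    (h : ∀ y y', ⟪L y, y'⟫_ℝ = ⟪y, L y'⟫_ℝ) (n : ℕ) :
    ∀ y y', ⟪(L ^ n) y, y'⟫_ℝ = ⟪y, (L ^ n) y'⟫_ℝ := by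
  induction n with
  | zero => intro y y'; simp
  | succ n ih =>
    intro y y'
    conv_lhs => rw [pow_succ']
    conv_rhs => rw [pow_succ]
    simp only [mul_apply_eq_comp]
    rw [h, ih]

theorem chi_lt {η t : ℝ} (h : 0 < η) (ht : -η < t) : χ η t < 1 := by
  have : -2 * t / η - 1 < 1 := by
    rw [sub_lt_iff_lt_add, div_lt_iff₀ h]; linarith
  unfold χ cl
  exact max_lt one_pos (lt_of_le_of_lt (min_le_right _ _) this)

theorem chi_one {η t : ℝ} (h : 0 < η) (ht : t ≤ -η) : χ η t = 1 := by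
  have : 1 ≤ -2 * t / η - 1 := by
    rw [le_sub_iff_add_le, le_div_iff₀ h]; linarith
  unfold χ cl
  rw [min_eq_left this, max_eq_right zero_le_one]

theorem chi_zero {η t : ℝ} (h : 0 < η) (ht : -η / 2 ≤ t) : χ η t = 0 := by
  have : -2 * t / η - 1 ≤ 0 := by
    rw [sub_nonpos, div_le_one h]; linarith
  unfold χ cl
  exact max_eq_left ((min_le_right _ _).trans this)

theorem chi_ct (η : ℝ) : Continuous (χ η) := by unfold χ cl; fun_prop

variable {X E₁ E₂ : Type} [TopologicalSpace X] [NormedAddCommGroup E₁] [InnerProductSpace ℝ E₁]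
  [NormedAddCommGroup E₂] [InnerProductSpace ℝ E₂] {G : Rg X E₁ E₂} {c κ R₀ M : ℝ}

theorem n_p2 (h : G.Ok c κ R₀ M) (x : X) (z : E₂) : ‖G.ι' x (G.ι x z)‖ = ‖G.ι x z‖ := by
  have : ‖G.ι' x (G.ι x z)‖ ^ 2 = ‖G.ι x z‖ ^ 2 := by
    rw [← real_inner_self_eq_norm_sq, ← real_inner_self_eq_norm_sq, ← h.ad, h.iii]
  exact (pow_left_inj₀ (norm_nonneg _) (norm_nonneg _) two_ne_zero).1 this

theorem n_i (h : G.Ok c κ R₀ M) (x : X) (z : E₂) : ‖G.ι x z‖ ≤ ‖z‖ := by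
  have e : ‖G.ι x z‖ ^ 2 ≤ ‖z‖ * ‖G.ι x z‖ := by
    rw [← real_inner_self_eq_norm_sq, h.ad, ← n_p2 h]; exact real_inner_le_norm _ _
  by_contra hn
  push Not at hn
  nlinarith [norm_nonneg z]

theorem n_i' (h : G.Ok c κ R₀ M) (x : X) (y : E₁) : ‖G.ι' x y‖ ≤ ‖y‖ := by
  have e : ‖G.ι' x y‖ ^ 2 ≤ ‖G.ι' x y‖ * ‖y‖ := by
    rw [← real_inner_self_eq_norm_sq, ← h.ad]
    exact (real_inner_le_norm _ _).trans (mul_le_mul_of_nonneg_right (n_i h _ _) (norm_nonneg _))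
  by_contra hn
  push Not at hn
  nlinarith [norm_nonneg y]

theorem iii' (h : G.Ok c κ R₀ M) (x : X) (y : E₁) :
    G.ι' x (G.ι x (G.ι' x y)) = G.ι' x y := by
  refine ext_inner_left ℝ fun z => ?_
  rw [← h.ad, real_inner_comm, h.ad, real_inner_comm, ← h.ad, h.iii, h.ad]

theorem fi_succ (n : ℕ) (w : X × E₁) : G.fi (n + 1) w = G.f (w.1, G.fi n w) := by
  unfold Rg.fi; rw [Function.iterate_succ_apply']

theorem fi_ct (h : G.Ok c κ R₀ M) (n : ℕ) : Continuous (G.fi n) := by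
  induction n with
  | zero => exact continuous_snd
  | succ n ih =>
    have : G.fi (n + 1) = fun w => G.f (w.1, G.fi n w) := funext (fi_succ n)
    rw [this]; exact h.fc.comp (continuous_fst.prodMk ih)

theorem fi_D (h : G.Ok c κ R₀ M) (n : ℕ) (w : X × E₁) (hw : w ∈ G.Dm) :
    (w.1, G.fi n w) ∈ G.Dm := by
  cases n with
  | zero => exact hw
  | succ n => rw [fi_succ]; exact h.fD (w.1, G.fi n w)

theorem fi_g (h : G.Ok c κ R₀ M) (n : ℕ) (w : X × E₁) (hw : w ∈ G.Dm) :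
    G.g (w.1, G.fi n w) ≤ G.g w := by
  induction n with
  | zero => exact le_rfl
  | succ n ih =>
    rw [fi_succ]
    have a := h.jg 1 ⟨zero_le_one, le_rfl⟩ _ (fi_D h n w hw)
    rw [h.j1 _ (fi_D h n w hw)] at a
    exact a.trans ih

theorem A_n (h : G.Ok c κ R₀ M) (x : X) (y : E₁) : ‖G.A x y‖ ≤ 2 * ‖y‖ := by
  have : G.A x y = y - G.H x y := rfl
  rw [this]
  have a := norm_sub_le y (G.H x y)
  have b := h.Hn x y
  nlinarith [norm_nonneg y]

theorem Ap_n (h : G.Ok c κ R₀ M) (x : X) (n : ℕ) (y : E₁) : ‖(G.A x ^ n) y‖ ≤ 2 ^ n * ‖y‖ := by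
  induction n with
  | zero => simp
  | succ n ih =>
    rw [pow_succ', mul_apply_eq_comp, pow_succ']
    have := A_n h x ((G.A x ^ n) y)
    nlinarith

theorem f_lin (h : G.Ok c κ R₀ M) (x : X) (y : E₁) (hy : ‖y‖ ≤ 2 * G.r) :
    G.f (x, y) = G.A x y := by
  obtain ⟨a, -, b⟩ := h.ln x y hy
  rw [← h.j1 _ a, b 1 ⟨zero_le_one, le_rfl⟩, one_smul]; rfl

theorem fi_lin (h : G.Ok c κ R₀ M) (x : X) (n : ℕ) (y : E₁) (hy : 2 ^ n * ‖y‖ ≤ 2 * G.r) :
    G.fi n (x, y) = (G.A x ^ n) y := by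
  induction n with
  | zero => rfl
  | succ n ih =>
    have p : (0 : ℝ) ≤ 2 ^ n * ‖y‖ := by positivity
    have q : (2 : ℝ) ^ n * ‖y‖ ≤ 2 * G.r := by rw [pow_succ] at hy; nlinarith
    rw [fi_succ, ih q, pow_succ', mul_apply_eq_comp]
    exact f_lin h x _ ((Ap_n h x n y).trans q)

theorem A_sym (h : G.Ok c κ R₀ M) (x : X) (y y' : E₁) : ⟪G.A x y, y'⟫_ℝ = ⟪y, G.A x y'⟫_ℝ := by
  have e : ∀ y, G.A x y = y - G.H x y := fun _ => rfl
  rw [e, e, inner_sub_left, inner_sub_right, h.Hs]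

theorem A_P (h : G.Ok c κ R₀ M) (x : X) (n : ℕ) (y : E₁) :
    (G.A x ^ n) (G.ι x (G.ι' x y)) = G.ι x (G.ι' x ((G.A x ^ n) y)) := by
  induction n generalizing y with
  | zero => rfl
  | succ n ih =>
    have e : ∀ y, G.A x y = y - G.H x y := fun _ => rfl
    rw [pow_succ, mul_apply_eq_comp, mul_apply_eq_comp, ← ih, e, e, h.HP,
      map_sub (G.ι' x), map_sub (G.ι x)]

theorem mx_ge (y : E₁) : 1 ≤ G.mx y := le_max_left _ _

theorem mx_n (h : G.Ok c κ R₀ M) (y : E₁) : ‖(G.mx y)⁻¹ • y‖ ≤ G.r := by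
  have p : 0 < G.mx y := lt_of_lt_of_le one_pos (mx_ge y)
  rw [norm_smul, norm_inv, Real.norm_of_nonneg p.le, inv_mul_le_iff₀ p, ← div_le_iff₀ h.hr]
  exact le_max_right _ _

theorem p_S (h : G.Ok c κ R₀ M) (x : X) (l : ℝ) (y : E₁) :
    G.p₁ x (G.S x l y) = l • G.p₁ x y := by
  unfold Rg.S
  rw [map_add, map_smul, h.pi, sub_smul, one_smul]; abel

theorem r_S (h : G.Ok c κ R₀ M) (x : X) (l : ℝ) (y : E₁) :
    G.S x l y - G.p₁ x (G.S x l y) = y - G.p₁ x y := by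
  rw [p_S h]; unfold Rg.S; rw [sub_smul, one_smul]; abel

theorem F_ct (h : G.Ok c κ R₀ M) (T : ℕ) : Continuous (G.F T) :=
  (fi_ct h T).comp (continuous_fst.prodMk h.fc)

end Crest.Agent.N218.Rd.Uv

namespace Crest.Agent.N218.Rd
open Pm

open Uv in
theorem uv : UV := by
  intro X E₁ E₂ _ _ _ _ _ _ _ _ _ G c κ R₀ M h T T' η R₁ k
  have hr := h.hr
  have hη := k.η0
  have cF := F_ct h T
  have cg : Continuous fun w : X × E₁ => G.g (w.1, G.F T w) := h.gc.comp (continuous_fst.prodMk cF)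
  have ci : Continuous fun w : X × E₁ => G.ι' w.1 (G.F T w) :=
    (h.ic'.comp continuous_fst).clm_apply cF
  have cχ : Continuous fun w : X × E₁ => 1 - 1 * χ η (G.g (w.1, G.F T w)) :=
    continuous_const.sub (continuous_const.mul ((chi_ct η).comp cg))
  have pχ : ∀ w : X × E₁, -η < G.g (w.1, G.F T w) → 0 < 1 - 1 * χ η (G.g (w.1, G.F T w)) :=
    fun w hw => by have := chi_lt hη hw; linarith
  have nv : ∀ w : X × E₁, -η < G.g (w.1, G.F T w) → ∀ R : ℝ, (‖(G.rd T T' η).v w‖ ≤ R ↔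
      ‖G.ι' w.1 (G.F T w)‖ ≤ (1 - 1 * χ η (G.g (w.1, G.F T w))) * R) := by
    intro w hw R
    change ‖(1 - 1 * χ η (G.g (w.1, G.F T w)))⁻¹ • G.ι' w.1 (G.F T w)‖ ≤ R ↔ _
    rw [norm_smul, norm_inv, Real.norm_of_nonneg (pχ w hw).le, inv_mul_le_iff₀ (pχ w hw)]
  refine ⟨?_, ?_, ?_, ?_, ?_, ?_, ?_, ?_, ?_, ?_⟩
  · have a : Continuous fun w : X × E₂ => G.ι w.1 w.2 :=
      (h.ic.comp continuous_fst).clm_apply continuous_snd
    have b : Continuous fun w : X × E₂ => G.mx (G.ι w.1 w.2) :=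
      continuous_const.max (a.norm.div_const _)
    have d : Continuous fun w : X × E₂ => G.fi T' (w.1, (G.mx (G.ι w.1 w.2))⁻¹ • G.ι w.1 w.2) :=
      (fi_ct h T').comp (continuous_fst.prodMk
        ((b.inv₀ fun w => (lt_of_lt_of_le one_pos (mx_ge _)).ne').smul a))
    exact d.add ((b.sub continuous_const).smul ((h.pc.comp continuous_fst).clm_apply d))
  · intro x z
    change G.S x (G.mx (G.ι x (G.ι' x (G.ι x z)))) (G.fi T' (x, (G.mx (G.ι x (G.ι' x (G.ι x z))))⁻¹ •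
      G.ι x (G.ι' x (G.ι x z)))) = _
    rw [h.iii]; rfl
  · intro x z
    change ‖G.S x _ _ - G.p₁ x (G.S x _ _)‖ ≤ M
    rw [r_S h]
    exact h.db _ (fi_D h T' (x, _) (h.ln x _ ((mx_n h _).trans (by linarith))).1)
  · intro x z hz
    change R₁ ≤ ‖G.ι' x (G.ι x z)‖ at hz
    change (1 + G.κ' κ) * ‖G.ι' x (G.ι x z)‖ ≤ ‖G.p₁ x (G.S x (G.mx (G.ι x z))
      (G.fi T' (x, (G.mx (G.ι x z))⁻¹ • G.ι x z)))‖
    rw [n_p2 h] at hz ⊢
    have R2 := k.Rr
    have p : 0 < ‖G.ι x z‖ := by linarith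
    have m : G.mx (G.ι x z) = ‖G.ι x z‖ / G.r :=
      max_eq_right (by rw [le_div_iff₀ hr]; linarith)
    have pm : 0 < G.mx (G.ι x z) := lt_of_lt_of_le one_pos (mx_ge _)
    obtain ⟨d, e, -⟩ := h.ln x ((G.mx (G.ι x z))⁻¹ • G.ι x z) ((mx_n h _).trans (by linarith))
    have n0 : ‖G.ι x ((G.mx (G.ι x z))⁻¹ • z)‖ = G.r := by
      rw [map_smul, norm_smul, norm_inv, Real.norm_of_nonneg pm.le, m]; field_simp
    have g0 := h.Hm x ((G.mx (G.ι x z))⁻¹ • z)
    rw [n0, map_smul] at g0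
    have es := k.es _ d (by rw [e]; have := k.ηa; linarith)
    rw [p_S h, norm_smul, Real.norm_of_nonneg pm.le]
    have k1 : G.κ' κ ≤ 1 := (min_le_right _ _).trans (min_le_left _ _)
    calc (1 + G.κ' κ) * ‖G.ι x z‖ ≤ 2 * ‖G.ι x z‖ := by nlinarith
      _ = G.mx (G.ι x z) * (2 * G.r) := by rw [m]; field_simp
      _ ≤ _ := mul_le_mul_of_nonneg_left (R2.trans es) pm.le
  · exact isOpen_lt continuous_const cg
  · exact (cχ.continuousOn.inv₀ fun w hw => (pχ w hw).ne').smul ci.continuousOn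
  · intro w hw
    change G.ι' w.1 (G.ι w.1 (_ • G.ι' w.1 _)) = _ • G.ι' w.1 _
    rw [map_smul, map_smul, iii' h]
  · intro R
    have e : {w ∈ (G.rd T T' η).Ov | ‖(G.rd T T' η).v w‖ ≤ R ∧ ‖w.2‖ ≤ R} =
        {w : X × E₁ | ‖G.F T w‖ ≤ G.r} ∩
        ({w | ‖G.ι' w.1 (G.F T w)‖ ≤ (1 - 1 * χ η (G.g (w.1, G.F T w))) * R} ∩ {w | ‖w.2‖ ≤ R}) := by
      ext w
      constructor
      · rintro ⟨a, b, d⟩
        refine ⟨?_, (nv w a R).1 b, d⟩
        rcases k.di (w.1, G.f w) (h.fD w) with u | u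
        · exact u.le
        · exact absurd a (not_lt.2 u)
      · rintro ⟨a, b, d⟩
        have o : -η < G.g (w.1, G.F T w) := by
          by_contra hn
          push Not at hn
          have b' : ‖G.ι' w.1 (G.F T w)‖ ≤ (1 - 1 * χ η (G.g (w.1, G.F T w))) * R := b
          rw [chi_one hη hn] at b'
          have z : G.ι' w.1 (G.F T w) = 0 := norm_le_zero_iff.1 (by simpa using b')
          have a' : ‖G.F T w‖ ≤ G.r := a
          have := (h.ln w.1 (G.F T w) (by linarith)).2.1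
          have := h.Hp _ _ z
          linarith
        exact ⟨o, (nv w o R).2 b, d⟩
    rw [e]
    refine ((isCompact_univ (X := X)).prod (isCompact_closedBall (0 : E₁) R)).of_isClosed_subset
      ((isClosed_le cF.norm continuous_const).inter ((isClosed_le ci.norm
        (cχ.mul continuous_const)).inter (isClosed_le continuous_snd.norm continuous_const))) ?_
    rintro w ⟨-, -, d⟩
    exact ⟨trivial, mem_closedBall_zero_iff.2 d⟩
  · intro w hw
    by_contra hn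
    push Not at hn
    change R₁ < ‖G.p₁ w.1 w.2‖ at hn
    obtain ⟨a, b⟩ := h.en w.1 1 w.2 le_rfl
    have e := h.hp.ex _ a (k.R0.trans hn.le)
    rw [b] at e
    have hk := h.hκ
    have r : R₁ ≤ ‖G.p₁ w.1 (G.f w)‖ := by
      have : (1 + κ) * ‖G.p₁ w.1 w.2‖ ≤ ‖G.p₁ w.1 (G.f w)‖ := e
      nlinarith [norm_nonneg (G.p₁ w.1 w.2)]
    have g1 := k.rg (w.1, G.f w) (h.fD w) r
    have g2 := fi_g h T (w.1, G.f w) (h.fD w)
    exact absurd hw (not_lt.2 (g2.trans g1))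
  · set N : ℝ := 2 ^ (T + T' + 1) with hN
    have N1 : ∀ n, n ≤ T + T' + 1 → (2 : ℝ) ^ n ≤ N := fun n hn =>
      pow_le_pow_right₀ one_le_two hn
    have N0 : 1 ≤ N := by simpa using N1 0 (Nat.zero_le _)
    have sm : ∀ (n : ℕ) (t : ℝ), n ≤ T + T' + 1 → 0 ≤ t → t < min G.r (min 1 η) / N →
        2 ^ n * t ≤ min G.r (min 1 η) := by
      intro n t hn t0 ht
      rw [lt_div_iff₀ (by linarith)] at ht
      nlinarith [N1 n hn]
    refine ⟨min G.r (min 1 η) / N, div_pos (lt_min hr (lt_min one_pos hη)) (by linarith), N,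
      fun x => ⟨(G.A x ^ T').comp (G.ι x), (G.ι' x).comp (G.A x ^ (T + 1)), ?_, ?_, ?_, ?_, ?_, ?_⟩⟩
    · refine nn_sym _ fun y y' => ?_
      simp only [ContinuousLinearMap.comp_apply]
      have e : ∀ y, (G.A x ^ T') (G.ι x (G.ι' x ((G.A x ^ (T + 1)) y))) =
          (G.A x ^ (T' + (T + 1))) (G.ι x (G.ι' x y)) := fun y => by
        rw [← A_P h, pow_add (G.A x) T']; rfl
      rw [e, e, A_P h _ _ y, h.ad, real_inner_comm, ← h.ad, real_inner_comm,
        pow_sym _ (A_sym h x)]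
    · refine nn_sym _ fun y y' => ?_
      simp only [ContinuousLinearMap.comp_apply]
      rw [real_inner_comm, ← h.ad, ← h.ad, ← mul_apply_eq_comp,
        ← mul_apply_eq_comp, ← pow_add, real_inner_comm, pow_sym _ (A_sym h x)]
    · intro z
      refine (Ap_n h x T' _).trans ?_
      exact mul_le_mul (N1 _ (by omega)) (n_i h x z) (norm_nonneg _) (by linarith)
    · intro y
      refine (n_i' h x _).trans ((Ap_n h x _ _).trans ?_)
      exact mul_le_mul_of_nonneg_right (N1 _ (by omega)) (norm_nonneg _)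
    · intro z hz
      have a := (n_i h x z).trans_lt hz
      have b := (sm 0 _ (by omega) (norm_nonneg _) a).trans (min_le_left _ _)
      have m : G.mx (G.ι x z) = 1 := max_eq_left (by rw [div_le_one hr]; simpa using b)
      change G.S x (G.mx (G.ι x z)) (G.fi T' (x, (G.mx (G.ι x z))⁻¹ • G.ι x z)) = _
      rw [m, inv_one, one_smul, fi_lin h x T' _ (((sm T' _ (by omega) (norm_nonneg _) a).trans
        (min_le_left _ _)).trans (by linarith))]
      simp [Rg.S]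
    · intro y hy
      have b := sm (T + 1) _ (by omega) (norm_nonneg _) hy
      have e : G.F T (x, y) = (G.A x ^ (T + 1)) y := by
        rw [← fi_lin h x (T + 1) y ((b.trans (min_le_left _ _)).trans (by linarith))]; rfl
      have n1 := (Ap_n h x (T + 1) y).trans b
      rw [← e] at n1
      have n2 := n1.trans (min_le_left _ _)
      have n3 := n1.trans ((min_le_right _ _).trans (min_le_left _ _))
      have n4 := n1.trans ((min_le_right _ _).trans (min_le_right _ _))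
      have g1 := (h.ln x (G.F T (x, y)) (by linarith)).2.1
      have g2 := abs_real_inner_le_norm (G.H x (G.F T (x, y))) (G.F T (x, y))
      have g3 := h.Hn x (G.F T (x, y))
      have g4 : -η / 2 ≤ G.g (x, G.F T (x, y)) := by
        have := (abs_le.1 g2).1
        rw [g1]
        nlinarith [norm_nonneg (G.F T (x, y)), norm_nonneg (G.H x (G.F T (x, y)))]
      refine ⟨(by linarith : -η < G.g (x, G.F T (x, y))), ?_⟩
      change (1 - 1 * χ η (G.g (x, G.F T (x, y))))⁻¹ • G.ι' x (G.F T (x, y)) = _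
      rw [chi_zero hη g4, e]
      simp

end Crest.Agent.N218.Rd
end
end

-- ▼ part N218/Rd/H1b
section

/-! Row 218, RED (helper79): the tail of `h₁` has only the zero orbit and is linear near it. -/

set_option autoImplicit false
set_option linter.unusedVariables false
set_option linter.unusedSectionVars false
open Set Topology
open scoped InnerProductSpace

noncomputable section

namespace Crest.Agent.N218.Rd
open Pm

namespace Hb
variable {X E₁ E₂ : Type} [TopologicalSpace X] [NormedAddCommGroup E₁] [InnerProductSpace ℝ E₁]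
  [NormedAddCommGroup E₂] [InnerProductSpace ℝ E₂] {G : Rg X E₁ E₂} {c κ R₀ M : ℝ}

theorem chi_zero {η t : ℝ} (h : 0 < η) (e : -η / 2 ≤ t) : χ η t = 0 :=
  cl_of_le (by rw [sub_nonpos, div_le_one h]; linarith)
theorem chi_one {η t : ℝ} (h : 0 < η) (e : t ≤ -η) : χ η t = 1 :=
  cl_of_ge (by rw [le_sub_iff_add_le, le_div_iff₀ h]; linarith)
theorem cl_pos {t : ℝ} (h : cl t ≠ 0) : 0 < t := lt_of_not_ge fun e => h (cl_of_le e)

theorem nn_of_sym {L : E₁ →L[ℝ] E₁} (h : ∀ y y', ⟪L y, y'⟫_ℝ = ⟪y, L y'⟫_ℝ) : Nn L :=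
  fun c z j a b => Ad.sym_seq (M := c • (L : E₁ →ₗ[ℝ] E₁)) (a := 1)
    (fun y y' => by simp [inner_smul_left, inner_smul_right, h]) one_ne_zero
    (fun i => by simpa using a i) b

section ok
variable (h : G.Ok c κ R₀ M)
include h

theorem it_D (t : ℝ) {w : X × E₁} (hw : w ∈ G.Dm) (n : ℕ) :
    (w.1, G.it t w n) ∈ G.Dm ∧ G.g (w.1, G.it t w n) ≤ G.g w := by
  induction n with
  | zero => exact ⟨hw, le_rfl⟩
  | succ n ih => exact ⟨h.jD _ (cl_mem _) _ ih.1, (h.jg _ (cl_mem _) _ ih.1).trans ih.2⟩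

theorem it_fi {t : ℝ} {w : X × E₁} (hw : w ∈ G.Dm) {n : ℕ} (e : (n : ℝ) ≤ t) :
    G.it t w n = G.fi n w := by
  induction n with
  | zero => rfl
  | succ n ih =>
    push_cast at e
    rw [Rg.it, cl_of_ge (by linarith), h.j1 _ (it_D h t hw n).1, ih (by linarith), Rg.fi, Rg.fi,
      Function.iterate_succ_apply']

theorem P_sym (x : X) (y y' : E₁) : ⟪G.P x y, y'⟫_ℝ = ⟪y, G.P x y'⟫_ℝ := by
  change ⟪G.ι x (G.ι' x y), y'⟫_ℝ = ⟪y, G.ι x (G.ι' x y')⟫_ℝ
  rw [h.ad, real_inner_comm (G.ι x _), h.ad, real_inner_comm]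
theorem P_P (x : X) (y : E₁) : G.P x (G.P x y) = G.P x y := h.iii x _
theorem P_Q (x : X) (y : E₁) : G.P x (y - G.P x y) = 0 := by rw [map_sub, P_P h, sub_self]
theorem i_Q (x : X) (y : E₁) : G.ι' x (y - G.P x y) = 0 := by
  rw [← inner_self_eq_zero (𝕜 := ℝ), ← h.ad]
  exact (congrArg (fun v => ⟪v, _⟫_ℝ) (P_Q h x y)).trans (inner_zero_left _)
theorem H_P (x : X) (y : E₁) : G.H x (G.P x y) = G.P x (G.H x y) := h.HP x y
theorem norm_PQ (x : X) (y : E₁) : ‖G.P x y‖ ≤ ‖y‖ ∧ ‖y - G.P x y‖ ≤ ‖y‖ := by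
  have a := norm_add_sq_real (G.P x y) (y - G.P x y)
  rw [add_sub_cancel, P_sym h, P_Q h, inner_zero_right] at a
  exact ⟨abs_le_of_sq_le_sq' (by nlinarith [sq_nonneg ‖y - G.P x y‖]) (norm_nonneg _) |>.2,
    abs_le_of_sq_le_sq' (by nlinarith [sq_nonneg ‖G.P x y‖]) (norm_nonneg _) |>.2⟩

theorem q_split (x : X) (y : E₁) (a b : ℝ) :
    ⟪G.H x (a • (y - G.P x y) + b • G.P x y), a • (y - G.P x y) + b • G.P x y⟫_ℝ =
      a ^ 2 * ⟪G.H x (y - G.P x y), y - G.P x y⟫_ℝ + b ^ 2 * ⟪G.H x (G.P x y), G.P x y⟫_ℝ := by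
  have e1 : ⟪G.H x (G.P x y), y - G.P x y⟫_ℝ = 0 := by
    rw [H_P h, P_sym h, P_Q h, inner_zero_right]
  have e2 : ⟪G.H x (y - G.P x y), G.P x y⟫_ℝ = 0 := by rw [h.Hs, real_inner_comm, e1]
  generalize y - G.P x y = u at *
  simp only [map_add, map_smul, inner_add_left, inner_add_right, real_inner_smul_left,
    real_inner_smul_right, e1, e2]
  ring

theorem q_le (x : X) (y : E₁) {a b : ℝ} (a0 : 0 ≤ a) (a1 : a ≤ 1) (b1 : 1 ≤ b) :
    ⟪G.H x (a • (y - G.P x y) + b • G.P x y), a • (y - G.P x y) + b • G.P x y⟫_ℝ ≤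
      ⟪G.H x y, y⟫_ℝ := by
  have e := q_split h x y 1 1
  rw [one_smul, one_smul, sub_add_cancel] at e
  have p := h.Hp x _ (i_Q h x y)
  have n : ⟪G.H x (G.P x y), G.P x y⟫_ℝ ≤ 0 :=
    (h.Hm x _).trans (neg_nonpos.2 (mul_nonneg h.ha.le (sq_nonneg _)))
  rw [q_split h, e]
  nlinarith [mul_nonneg p (show 0 ≤ 1 - a ^ 2 by nlinarith),
    mul_nonneg (neg_nonneg.2 n) (show 0 ≤ b ^ 2 - 1 by nlinarith)]

theorem p_S (x : X) (l : ℝ) (y : E₁) : G.p₁ x (G.S x l y) = l • G.p₁ x y := by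
  rw [Rg.S, map_add, map_smul, h.pi]; module

variable {T T' : ℕ} {η R₁ : ℝ}

theorem step (k : G.Cst R₀ T T' η R₁) {x : X} {s : ℝ} (hs : 1 / 4 ≤ s) {y : E₁}
    (ho : ((x, s), y) ∈ (G.rd T T' η).O₁) :
    R₁ ≤ ‖G.p₁ x ((G.rd T T' η).h₁ ((x, s), y))‖ ∨ ((x, (G.rd T T' η).h₁ ((x, s), y)) ∈ G.Dm ∧
      G.g (x, (G.rd T T' η).h₁ ((x, s), y)) ≤ G.g (x, G.f (x, y))) := by
  have o : cl (4 * s - 2) * χ η (G.g (x, G.Yt T T' ((x, s), y))) < 1 := ho.2
  have eY : G.Yt T T' ((x, s), y) = G.it ((T + T') * cl (4 * s - 1)) (x, G.f (x, y)) T := by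
    rw [Rg.Yt, (h.en x (4 * s) y (by linarith)).2]
  have f0 : (x, G.f (x, y)) ∈ G.Dm := h.fD (x, y)
  have hY := it_D h ((T + T') * cl (4 * s - 1)) f0 T
  dsimp only at hY
  rw [← eY] at hY
  have eθ : G.θ T T' η ((x, s), y) =
    (1 - cl (4 * s - 2) * χ η (G.g (x, G.Yt T T' ((x, s), y))))⁻¹ := rfl
  have em : G.m T T' η ((x, s), y) =
    max 1 (‖G.θ T T' η ((x, s), y) • G.P x (G.Yt T T' ((x, s), y))‖ / G.r) := rfl
  have eW : G.Wt T T' η ((x, s), y) =
      (1 - cl (4 * s - 3)) • (G.Yt T T' ((x, s), y) - G.P x (G.Yt T T' ((x, s), y))) +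
      (1 + cl (4 * s - 3) * (G.θ T T' η ((x, s), y) / G.m T T' η ((x, s), y) - 1)) •
        G.P x (G.Yt T T' ((x, s), y)) := by
    rw [Rg.Wt]; module
  change R₁ ≤ ‖G.p₁ x (G.S x _ (G.it _ (x, G.Wt T T' η ((x, s), y)) T'))‖ ∨
    ((x, G.S x _ (G.it _ (x, G.Wt T T' η ((x, s), y)) T')) ∈ G.Dm ∧
      G.g (x, G.S x _ (G.it _ (x, G.Wt T T' η ((x, s), y)) T')) ≤ _)
  dsimp only
  generalize G.Wt T T' η ((x, s), y) = W at *
  generalize G.m T T' η ((x, s), y) = m at *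
  generalize G.θ T T' η ((x, s), y) = θ at *
  generalize G.Yt T T' ((x, s), y) = Y at *
  have b0 := cl_mem (4 * s - 2)
  have c0 := cl_mem (4 * s - 3)
  have x0 : 0 ≤ cl (4 * s - 2) * χ η (G.g (x, Y)) := mul_nonneg b0.1 (cl_mem _).1
  have θ1 : 1 ≤ θ := eθ ▸ one_le_inv_iff₀.2 ⟨by linarith, by linarith⟩
  have m1 : 1 ≤ m := em ▸ le_max_left _ _
  have key : ((x, W) ∈ G.Dm ∧ G.g (x, W) ≤ G.g (x, Y)) ∧ cl (4 * s - 3) * m ≤ cl (4 * s - 3) * θ := by
    by_cases γ0 : cl (4 * s - 3) = 0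
    · rw [γ0] at eW ⊢
      have : W = Y := by rw [eW]; module
      exact ⟨by rw [this]; exact ⟨hY.1, le_rfl⟩, by simp⟩
    have s3 := cl_pos γ0
    rw [cl_of_ge (by linarith), one_mul] at o
    rw [cl_of_ge (by linarith), mul_one, it_fi h f0 (by simp)] at eY
    have Yr : ‖Y‖ < G.r := by
      rcases k.di _ f0 with e | e
      · exact eY ▸ e
      · rw [← eY] at e
        exact absurd (chi_one k.η0 e) o.ne
    obtain ⟨n1, n2⟩ := norm_PQ h x Y
    have n0 := norm_nonneg (G.P x Y)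
    rw [norm_smul, Real.norm_of_nonneg (by linarith)] at em
    have mθ : m ≤ θ := em ▸ max_le θ1 ((div_le_iff₀ h.hr).2 (by nlinarith))
    have m2 : θ * ‖G.P x Y‖ ≤ m * G.r := (div_le_iff₀ h.hr).1 (em ▸ le_max_right _ _)
    have d1 : 1 ≤ θ / m := (one_le_div (by linarith)).2 mθ
    have d2 : θ / m * ‖G.P x Y‖ ≤ G.r := by
      rw [div_mul_eq_mul_div, div_le_iff₀ (by linarith)]; linarith
    have b1 : 1 ≤ 1 + cl (4 * s - 3) * (θ / m - 1) := by nlinarith [c0.1]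
    have b2 : 1 + cl (4 * s - 3) * (θ / m - 1) ≤ θ / m := by nlinarith [c0.2]
    have nW : ‖W‖ ≤ 2 * G.r := by
      rw [eW]
      refine (norm_add_le _ _).trans ?_
      rw [norm_smul, norm_smul, Real.norm_of_nonneg (sub_nonneg.2 c0.2),
        Real.norm_of_nonneg (by linarith)]
      nlinarith [c0.1, norm_nonneg (Y - G.P x Y)]
    refine ⟨⟨(h.ln x W nW).1, ?_⟩, mul_le_mul_of_nonneg_left mθ c0.1⟩
    rw [(h.ln x W nW).2.1, (h.ln x Y (by linarith [h.hr])).2.1, eW]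
    linarith [q_le h x Y (sub_nonneg.2 c0.2) (by linarith [c0.1]) b1]
  have hZ := it_D h ((T + T') * cl (4 * s - 1) - T) key.1.1 T'
  by_cases e : θ = 1
  · have : (1 - cl (4 * s - 3)) * θ + cl (4 * s - 3) * m = 1 := by nlinarith [key.2, c0.1]
    rw [this, Rg.S, sub_self, zero_smul, add_zero]
    exact .inr ⟨hZ.1, hZ.2.trans (key.1.2.trans hY.2)⟩
  · have n : cl (4 * s - 2) * χ η (G.g (x, Y)) ≠ 0 := fun z => e (by rw [eθ, z]; simp)
    have s2 := cl_pos (left_ne_zero_of_mul n)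
    have g2 : G.g (x, Y) < -η / 2 := lt_of_not_ge fun z => right_ne_zero_of_mul n (chi_zero k.η0 z)
    have := k.es _ key.1.1 (key.1.2.trans g2.le)
    rw [cl_of_ge (t := 4 * s - 1) (by linarith), it_fi h key.1.1 (by simp), p_S h, norm_smul]
    have l1 : 1 ≤ (1 - cl (4 * s - 3)) * θ + cl (4 * s - 3) * m := by nlinarith [c0.1, c0.2]
    rw [Real.norm_of_nonneg (by linarith)]
    exact .inl (this.trans (le_mul_of_one_le_left (norm_nonneg _) l1))

end ok

/-- symmetric operators that commute with `H` and `P` -/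
structure Sy (G : Rg X E₁ E₂) (x : X) (L : E₁ →L[ℝ] E₁) : Prop where
  sym : ∀ y y', ⟪L y, y'⟫_ℝ = ⟪y, L y'⟫_ℝ
  cH : ∀ y, L (G.H x y) = G.H x (L y)
  cP : ∀ y, L (G.P x y) = G.P x (L y)

theorem Sy.mul (h : G.Ok c κ R₀ M) {x : X} {L : E₁ →L[ℝ] E₁} (s : Sy G x L) (a b d : ℝ) :
    Sy G x (a • L + b • (G.H x).comp L + d • (G.P x).comp L) where
  sym y y' := by
    simp only [add_apply, smul_apply,
      ContinuousLinearMap.comp_apply, inner_add_left, inner_add_right, real_inner_smul_left,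
      real_inner_smul_right]
    rw [h.Hs, P_sym h, s.sym, s.sym, s.sym, s.cH, s.cP]
  cH y := by simp [s.cH, H_P h]
  cP y := by simp [s.cP, H_P h]

theorem it_lin (h : G.Ok c κ R₀ M) {x : X} {L : E₁ →L[ℝ] E₁} (s : Sy G x L) {K : ℝ} (K0 : 0 ≤ K)
    (hL : ∀ y, ‖L y‖ ≤ K * ‖y‖) (t : ℝ) (n : ℕ) : ∃ L', Sy G x L' ∧
      (∀ y, ‖L' y‖ ≤ 2 ^ n * K * ‖y‖) ∧
      ∀ y, 2 ^ n * K * ‖y‖ ≤ 2 * G.r → G.it t (x, L y) n = L' y := by
  induction n with
  | zero => exact ⟨L, s, by simpa using hL, fun _ _ => rfl⟩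
  | succ n ih =>
    obtain ⟨L', a, b, d⟩ := ih
    have m := cl_mem (t - n)
    have e : ∀ y, ((1 : ℝ) • L' + (-cl (t - n)) • (G.H x).comp L' + (0 : ℝ) • (G.P x).comp L') y =
      L' y - cl (t - n) • G.H x (L' y) := fun y => by simp [sub_eq_add_neg]
    refine ⟨_, a.mul h 1 (-cl (t - n)) 0, fun y => ?_, fun y hy => ?_⟩
    · rw [e]
      refine (norm_sub_le _ _).trans ?_
      rw [norm_smul, Real.norm_of_nonneg m.1, pow_succ]
      nlinarith [b y, h.Hn x (L' y), m.2, norm_nonneg (L' y), norm_nonneg (G.H x (L' y))]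
    · have p : 0 ≤ 2 ^ n * K * ‖y‖ := by positivity
      rw [pow_succ] at hy
      rw [Rg.it, d y (by linarith), e]
      exact (h.ln x _ (by linarith [b y])).2.2 _ m

end Hb
open Hb

theorem h1b : H1B := by
  intro X E₁ E₂ _ _ _ _ _ _ _ _ _ G c κ R₀ M h T T' η R₁ k a
  constructor
  · intro x s hs n y ho hy
    have e : ∀ i, y (i + 1) = (G.rd T T' η).h₁ ((x, s), y i) := fun i => by
      rw [hy, add_sub_cancel_right]
    have κ0 : 0 < G.κ' κ := lt_min h.hκ (lt_min one_pos (lt_min h.ha (sub_pos.2 h.hμ)))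
    have b : ∀ i, ‖G.p₁ x (y i)‖ < R₁ := by
      obtain ⟨i, hi⟩ := Finite.exists_max fun i => ‖G.p₁ x (y i)‖
      refine fun j => (hi j).trans_lt (lt_of_not_ge fun u => ?_)
      have v : (1 + G.κ' κ) * ‖G.p₁ x (y i)‖ ≤ ‖G.p₁ x ((G.rd T T' η).h₁ ((x, s), y i))‖ :=
        a.hp.ex _ (ho i) u
      rw [← e] at v
      nlinarith [hi (i + 1), k.R1]
    have d : ∀ i, (x, y (i + 1)) ∈ G.Dm ∧ G.g (x, y (i + 1)) ≤ G.g (x, G.f (x, y i)) := fun i => by
      have := step h k hs (ho i)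
      rw [← e] at this
      exact this.resolve_left (b _).not_ge
    have dm : ∀ i, (x, y i) ∈ G.Dm := fun i => by simpa using (d (i - 1)).1
    have le : ∀ i, G.g (x, y (i + 1)) ≤ G.g (x, y i) := fun i => (d i).2.trans (by
      have := h.jg 1 ⟨zero_le_one, le_rfl⟩ _ (dm i)
      rwa [h.j1 _ (dm i)] at this)
    have eq := (Finset.sum_eq_sum_iff_of_le (s := Finset.univ) fun i _ => le i).1
      (Equiv.sum_comp (Equiv.addRight 1) fun i => G.g (x, y i))
    funext i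
    by_contra u
    exact ((d i).2.trans_lt (h.gf _ (dm i) u)).ne (eq i (Finset.mem_univ _))
  · have μ0 : 0 < min G.r (min 1 η) := lt_min h.hr (lt_min one_pos k.η0)
    refine ⟨min G.r (min 1 η) / (2 ^ T' * (2 * (2 ^ T * 2))), by positivity, fun x s hs => ?_⟩
    have s0 : Sy G x 1 := ⟨fun _ _ => rfl, fun _ => rfl, fun _ => rfl⟩
    obtain ⟨L0, a0, b0, d0⟩ := it_lin h s0 zero_le_one (fun y => by simp) 1 1
    simp only [pow_one, mul_one] at b0 d0
    obtain ⟨L1, a1, b1, d1⟩ := it_lin h a0 zero_le_two b0 ((T + T') * cl (4 * s - 1)) T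
    have c0 := cl_mem (4 * s - 3)
    have e2 : ∀ y, ((1 - cl (4 * s - 3)) • L1 + (0 : ℝ) • (G.H x).comp L1 +
        cl (4 * s - 3) • (G.P x).comp L1) y =
        L1 y - cl (4 * s - 3) • (L1 y - G.P x (L1 y)) := fun y => by
      simp only [add_apply, smul_apply,
        ContinuousLinearMap.comp_apply]
      module
    obtain ⟨L3, a3, b3, d3⟩ := it_lin h (a1.mul h (1 - cl (4 * s - 3)) 0 (cl (4 * s - 3)))
      (K := 2 * (2 ^ T * 2)) (by positivity) (fun y => by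
        rw [e2]
        refine (norm_sub_le _ _).trans ?_
        rw [norm_smul, Real.norm_of_nonneg c0.1]
        nlinarith [b1 y, (norm_PQ h x (L1 y)).2, c0.2, norm_nonneg (L1 y - G.P x (L1 y))])
      ((T + T') * cl (4 * s - 1) - T) T'
    refine ⟨L3, nn_of_sym a3.sym, fun y hy => ?_⟩
    rw [lt_div_iff₀ (by positivity), lt_min_iff, lt_min_iff] at hy
    have n0 := norm_nonneg y
    have p1 : (1 : ℝ) ≤ 2 ^ T := one_le_pow₀ one_le_two
    have p2 : (1 : ℝ) ≤ 2 ^ T' := one_le_pow₀ one_le_two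
    have q1 : 2 * ‖y‖ ≤ 2 ^ T * 2 * ‖y‖ := by nlinarith
    have q2 : 2 ^ T * 2 * ‖y‖ ≤ ‖y‖ * (2 ^ T' * (2 * (2 ^ T * 2))) := by
      nlinarith [mul_nonneg (sub_nonneg.2 p2) (show 0 ≤ 2 ^ T * ‖y‖ by positivity)]
    have r0 := h.hr
    have e0 : G.f (x, y) = L0 y := by
      rw [← d0 y (by linarith [hy.1])]
      exact (it_fi h (h.ln x y (by linarith [hy.1])).1 (n := 1) (by simp)).symm
    have en := h.en x (4 * s) y (by linarith)
    have eY : G.Yt T T' ((x, s), y) = L1 y := by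
      rw [Rg.Yt, en.2, e0]; exact d1 y (by linarith [hy.1])
    have nY := b1 y
    have n1 := norm_nonneg (L1 y)
    have x0 : χ η (G.g (x, L1 y)) = 0 := chi_zero k.η0 (by
      rw [(h.ln x _ (by linarith [hy.1])).2.1]
      have u := abs_real_inner_le_norm (G.H x (L1 y)) (L1 y)
      have v := neg_abs_le ⟪G.H x (L1 y), L1 y⟫_ℝ
      have w : ‖L1 y‖ * ‖L1 y‖ ≤ 1 * η :=
        mul_le_mul (by linarith [hy.2.1]) (by linarith [hy.2.2]) n1 zero_le_one
      nlinarith [h.Hn x (L1 y), k.η0])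
    have eθ : G.θ T T' η ((x, s), y) = 1 := by rw [Rg.θ, th, eY, x0]; simp
    have em : G.m T T' η ((x, s), y) = 1 := by
      rw [Rg.m, eθ, one_smul, eY]
      exact max_eq_left ((div_le_one r0).2 (by linarith [(norm_PQ h x (L1 y)).1, hy.1]))
    refine ⟨⟨en.1, ?_⟩, ?_⟩
    · rw [eY, x0]; simp
    · change G.S x _ (G.it _ (x, G.Wt T T' η ((x, s), y)) T') = _
      have := d3 y (by linarith [hy.1])
      rw [e2] at this
      rw [Rg.Wt, eθ, em, eY, Rg.S]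
      simp only [mul_one, sub_add_cancel, sub_self, div_one, mul_zero, zero_smul, add_zero]
      exact this

end Crest.Agent.N218.Rd
end
end

-- ▼ part N218/Rd/H2

/-! Row 218, RED (helper82): the clauses on `h₂`. -/

set_option autoImplicit false
set_option linter.unusedVariables false
set_option linter.unusedSectionVars false
open Set Topology
open scoped InnerProductSpace

noncomputable section

namespace Crest.Agent.N218.Rd
open Pm

namespace H2k

theorem cl0 (t : ℝ) : 0 ≤ cl t := le_max_left _ _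
theorem cl1 (t : ℝ) : cl t ≤ 1 := max_le zero_le_one (min_le_left _ _)
theorem cl_z {t : ℝ} (h : t ≤ 0) : cl t = 0 := max_eq_left ((min_le_right _ _).trans h)
theorem cl_o {t : ℝ} (h : 1 ≤ t) : cl t = 1 := by rw [cl, min_eq_left h, max_eq_right zero_le_one]
theorem cl_lt {t : ℝ} : cl t < 1 ↔ t < 1 := by simp [cl]
theorem cl_ct : Continuous cl := by unfold cl; fun_prop
theorem chi_lt {η t : ℝ} (h : 0 < η) : χ η t < 1 ↔ -η < t := by
  rw [χ, cl_lt, sub_lt_iff_lt_add, div_lt_iff₀ h]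
  constructor <;> intro <;> linarith
theorem chi_z {η t : ℝ} (h : 0 < η) (k : -η / 2 ≤ t) : χ η t = 0 :=
  cl_z (by rw [sub_nonpos, div_le_iff₀ h]; linarith)

theorem nn_sym {E : Type} [NormedAddCommGroup E] [InnerProductSpace ℝ E] {L : E →L[ℝ] E}
    (h : ∀ y y', ⟪L y, y'⟫_ℝ = ⟪y, L y'⟫_ℝ) : Nn L := fun c z j hz e => by
  have k : ∀ n i, ⟪z (i + n), z 0⟫_ℝ = ⟪z i, z n⟫_ℝ := fun n => by
    induction n with
    | zero => exact fun _ => rfl
    | succ n ih =>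
      intro i
      rw [add_comm n, ← add_assoc, ih, hz, add_comm 1, hz, inner_smul_left, inner_smul_right, h]
      rfl
  have a := k j j
  rw [← two_mul, e, inner_neg_left, real_inner_self_eq_norm_sq, real_inner_self_eq_norm_sq] at a
  exact norm_eq_zero.1 (by nlinarith [norm_nonneg (z 0), sq_nonneg ‖z j‖])

variable {X E₁ E₂ : Type} [TopologicalSpace X] [NormedAddCommGroup E₁] [InnerProductSpace ℝ E₁]
  [NormedAddCommGroup E₂] [InnerProductSpace ℝ E₂] {G : Rg X E₁ E₂} {c κ R₀ M : ℝ}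

theorem A_ap (x : X) (y : E₁) : G.A x y = y - G.H x y := rfl

theorem pow_ap (x : X) (n : ℕ) (y : E₁) : (G.A x ^ (n + 1)) y = G.A x ((G.A x ^ n) y) := by
  rw [pow_succ']; rfl

theorem pow_ap' (x : X) (n : ℕ) (y : E₁) : (G.A x ^ (n + 1)) y = (G.A x ^ n) (G.A x y) := by
  rw [pow_succ]; rfl

section
variable (h : G.Ok c κ R₀ M)
include h

theorem ad' (x : X) (y : E₁) (z : E₂) : ⟪G.ι' x y, z⟫_ℝ = ⟪y, G.ι x z⟫_ℝ := by
  rw [real_inner_comm, ← h.ad, real_inner_comm]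

theorem iii' (x : X) (y : E₁) : G.ι' x (G.ι x (G.ι' x y)) = G.ι' x y :=
  ext_inner_left ℝ fun z => by rw [← h.ad, ← ad' h, ← h.ad, h.iii, h.ad]

theorem n_p (x : X) (z : E₂) : ‖G.ι' x (G.ι x z)‖ = ‖G.ι x z‖ := by
  rw [← sq_eq_sq₀ (norm_nonneg _) (norm_nonneg _), ← real_inner_self_eq_norm_sq,
    ← real_inner_self_eq_norm_sq, ad' h, h.iii]

theorem n_i (x : X) (z : E₂) : ‖G.ι x z‖ ≤ ‖z‖ := by
  have a := real_inner_le_norm z (G.ι' x (G.ι x z))
  rw [← h.ad, real_inner_self_eq_norm_sq, n_p h] at a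
  rcases (norm_nonneg (G.ι x z)).eq_or_lt with e | e
  · exact e ▸ norm_nonneg _
  · exact le_of_mul_le_mul_right (by nlinarith) e

theorem A_sym (x : X) (y y' : E₁) : ⟪G.A x y, y'⟫_ℝ = ⟪y, G.A x y'⟫_ℝ := by
  rw [A_ap, A_ap, inner_sub_left, inner_sub_right, h.Hs]

theorem pow_sym (x : X) (n : ℕ) : ∀ y y', ⟪(G.A x ^ n) y, y'⟫_ℝ = ⟪y, (G.A x ^ n) y'⟫_ℝ := by
  induction n with
  | zero => exact fun _ _ => rfl
  | succ n ih => intro y y'; rw [pow_ap, A_sym h, ih, pow_ap']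

theorem A_rg (x : X) (z : E₂) : G.A x (G.ι x z) = G.ι x (z - G.ι' x (G.H x (G.ι x z))) := by
  rw [A_ap, map_sub, ← h.HP, h.iii]

theorem pow_rg (x : X) (n : ℕ) (z : E₂) : ∃ z', (G.A x ^ n) (G.ι x z) = G.ι x z' := by
  induction n with
  | zero => exact ⟨z, rfl⟩
  | succ n ih => obtain ⟨z', e⟩ := ih; exact ⟨_, by rw [pow_ap, e, A_rg h]⟩

theorem A_in (x : X) (z : E₂) :
    (1 + G.a) * ‖G.ι x z‖ ^ 2 ≤ ⟪G.A x (G.ι x z), G.ι x z⟫_ℝ := by
  rw [A_ap, inner_sub_left, real_inner_self_eq_norm_sq]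
  linarith [h.Hm x z]

theorem A_lo (x : X) (z : E₂) : (1 + G.a) * ‖G.ι x z‖ ≤ ‖G.A x (G.ι x z)‖ := by
  have a := (A_in h x z).trans (real_inner_le_norm _ _)
  rcases (norm_nonneg (G.ι x z)).eq_or_lt with e | e
  · rw [← e, mul_zero]; exact norm_nonneg _
  · exact le_of_mul_le_mul_right (by nlinarith) e

theorem pow_in (x : X) (n : ℕ) : ∀ z : E₂,
    (1 + G.a) * ‖G.ι x z‖ ^ 2 ≤ ⟪(G.A x ^ (n + 1)) (G.ι x z), G.ι x z⟫_ℝ := by
  have ha := h.ha
  have sq : ∀ z, (1 + G.a) * ‖G.ι x z‖ ^ 2 ≤ ‖G.A x (G.ι x z)‖ ^ 2 := fun z => by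
    have := pow_le_pow_left₀ (by positivity) (A_lo h x z) 2
    nlinarith [mul_nonneg (mul_nonneg ha.le (by linarith : 0 ≤ 1 + G.a)) (sq_nonneg ‖G.ι x z‖)]
  induction n using Nat.twoStepInduction with
  | zero => intro z; rw [zero_add, pow_one]; exact A_in h x z
  | one => intro z; rw [pow_ap, A_sym h, pow_one, real_inner_self_eq_norm_sq]; exact sq z
  | more n ih _ =>
    intro z
    rw [add_right_comm, pow_ap, A_sym h, pow_ap', A_rg h]
    refine le_trans ?_ (ih _)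
    rw [← A_rg h]
    nlinarith [sq z, mul_nonneg ha.le (sq_nonneg ‖G.A x (G.ι x z)‖)]

theorem A_hi (x : X) (y : E₁) : ‖G.A x y‖ ≤ 3 / 2 * ‖y‖ := by
  rw [A_ap]
  exact (norm_sub_le _ _).trans (by linarith [h.Hn x y])

theorem pow_hi (x : X) (n : ℕ) (y : E₁) : ‖(G.A x ^ n) y‖ ≤ (3 / 2) ^ n * ‖y‖ := by
  induction n with
  | zero => simp
  | succ n ih => rw [pow_ap, pow_succ]; linarith [A_hi h x ((G.A x ^ n) y)]

theorem q_lo (x : X) (y : E₁) : -(‖y‖ ^ 2 / 4) ≤ G.q x y := by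
  have := neg_le_of_abs_le (abs_real_inner_le_norm (G.H x y) y)
  have := mul_le_mul_of_nonneg_right (h.Hn x y) (norm_nonneg y)
  rw [Rg.q]; nlinarith

theorem q_A (x : X) (y : E₁) : G.q x (G.A x y) ≤ G.q x y := by
  have := real_inner_le_norm (G.H x (G.H x y)) (G.H x y)
  have := mul_le_mul_of_nonneg_right (h.Hn x (G.H x y)) (norm_nonneg (G.H x y))
  rw [Rg.q, Rg.q, A_ap, map_sub, inner_sub_left, inner_sub_right, inner_sub_right,
    h.Hs x (G.H x y) y, real_inner_self_eq_norm_sq]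
  nlinarith [sq_nonneg ‖G.H x y‖]

theorem q_pow (x : X) (n : ℕ) (y : E₁) : G.q x ((G.A x ^ n) y) ≤ G.q x y := by
  induction n with
  | zero => exact le_rfl
  | succ n ih => rw [pow_ap]; exact (q_A h x _).trans ih

theorem q_far {η : ℝ} (hη : η ≤ G.a * G.r ^ 2 / 2) (x : X) (z : E₂) (k : G.r ≤ ‖G.ι x z‖) :
    G.q x (G.ι x z) ≤ -η := by
  have := mul_le_mul_of_nonneg_left (pow_le_pow_left₀ h.hr.le k 2) h.ha.le
  have := h.Hm x z
  rw [Rg.q]; linarith

theorem g_f {w : X × E₁} (hw : w ∈ G.Dm) : G.g (w.1, G.f w) ≤ G.g w :=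
  h.j1 w hw ▸ h.jg 1 ⟨zero_le_one, le_rfl⟩ w hw

theorem fi_s (n : ℕ) (w : X × E₁) : G.fi (n + 1) w = G.f (w.1, G.fi n w) :=
  Function.iterate_succ_apply' _ _ _

theorem g_fi (n : ℕ) {w : X × E₁} (hw : w ∈ G.Dm) :
    (w.1, G.fi n w) ∈ G.Dm ∧ G.g (w.1, G.fi n w) ≤ G.g w := by
  induction n with
  | zero => exact ⟨hw, le_rfl⟩
  | succ n ih => rw [fi_s h]; exact ⟨h.fD (w.1, G.fi n w), (g_f h ih.1).trans ih.2⟩

/-- the orbit of a small unstable vector is linear until it has left -/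
theorem orb {η : ℝ} (hη : η ≤ G.a * G.r ^ 2 / 2) (x : X) (z : E₂) (k : ‖G.ι x z‖ ≤ G.r) (n : ℕ) :
    (G.fi n (x, G.ι x z) = (G.A x ^ n) (G.ι x z) ∧ ‖(G.A x ^ n) (G.ι x z)‖ ≤ 2 * G.r) ∨
      (G.g (x, G.fi n (x, G.ι x z)) ≤ -η ∧ G.q x ((G.A x ^ n) (G.ι x z)) ≤ -η) := by
  have hr := h.hr
  have d := fun n => (g_fi h n (h.ln x _ (k.trans (by linarith))).1).1
  induction n with
  | zero => exact .inl ⟨rfl, k.trans (by linarith)⟩
  | succ n ih =>
    rw [fi_s h, pow_ap]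
    rcases ih with ⟨e, b⟩ | ⟨a, b⟩
    · obtain ⟨m, gq, jl⟩ := h.ln x _ b
      rcases le_total ‖(G.A x ^ n) (G.ι x z)‖ G.r with l | l
      · refine .inl ⟨?_, (A_hi h x _).trans (by linarith)⟩
        rw [e, ← h.j1 _ m, jl 1 ⟨zero_le_one, le_rfl⟩, one_smul, A_ap]
      · obtain ⟨z', e'⟩ := pow_rg h x n z
        have : G.q x ((G.A x ^ n) (G.ι x z)) ≤ -η := by rw [e'] at l ⊢; exact q_far h hη x z' l
        exact .inr ⟨by rw [e]; exact (g_f h m).trans (gq.le.trans this), (q_A h x _).trans this⟩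
    · exact .inr ⟨(g_f h (d n)).trans a, (q_A h x _).trans b⟩

end

variable (G) in
/-- the linear part of `h₂` -/
def B (n : ℕ) (x : X) (s : ℝ) : E₂ →L[ℝ] E₂ :=
  (1 - cl s) • (G.ι' x).comp ((G.A x ^ n).comp (G.ι x)) + (cl s * G.μ) • (G.ι' x).comp (G.ι x)

theorem B_ap (n : ℕ) (x : X) (s : ℝ) (z : E₂) : B G n x s z =
    (1 - cl s) • G.ι' x ((G.A x ^ n) (G.ι x z)) + (cl s * G.μ) • G.ι' x (G.ι x z) := rfl

section
variable (h : G.Ok c κ R₀ M)
include h

theorem B_sym (n : ℕ) (x : X) (s : ℝ) (z z' : E₂) :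
    ⟪B G n x s z, z'⟫_ℝ = ⟪z, B G n x s z'⟫_ℝ := by
  simp only [B_ap, inner_add_left, inner_add_right, real_inner_smul_left, real_inner_smul_right,
    ad' h, ← h.ad, pow_sym h]

theorem B_lo (n : ℕ) (x : X) (s : ℝ) (z : E₂) :
    (1 + G.κ' κ) * ‖G.ι x z‖ ≤ ‖B G (n + 1) x s z‖ := by
  have a := real_inner_le_norm (B G (n + 1) x s z) (G.ι' x (G.ι x z))
  have b := pow_in h x n z
  have k1 : G.κ' κ ≤ G.a := (min_le_right _ _).trans ((min_le_right _ _).trans (min_le_left _ _))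
  have k2 : G.κ' κ ≤ G.μ - 1 :=
    (min_le_right _ _).trans ((min_le_right _ _).trans (min_le_right _ _))
  have e : ⟪B G (n + 1) x s z, G.ι' x (G.ι x z)⟫_ℝ = (1 - cl s) *
      ⟪(G.A x ^ (n + 1)) (G.ι x z), G.ι x z⟫_ℝ + cl s * G.μ * ‖G.ι x z‖ ^ 2 := by
    simp only [B_ap, inner_add_left, real_inner_smul_left, ad' h, h.iii,
      real_inner_self_eq_norm_sq]
  rw [e, n_p h] at a
  rcases (norm_nonneg (G.ι x z)).eq_or_lt with e | e
  · rw [← e, mul_zero]; exact norm_nonneg _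
  · refine le_of_mul_le_mul_right ?_ e
    have c0 := cl0 s
    have c1 := sub_nonneg.2 (cl1 s)
    have n2 := sq_nonneg ‖G.ι x z‖
    nlinarith [mul_le_mul_of_nonneg_left b c1, mul_nonneg (mul_nonneg c1 (sub_nonneg.2 k1)) n2,
      mul_nonneg (mul_nonneg c0 (sub_nonneg.2 k2)) n2]

theorem A_ct (n : ℕ) : Continuous fun x => G.A x ^ n :=
  (continuous_const.sub h.Hc).pow n

theorem y_ct (n : ℕ) : Continuous fun w : (X × ℝ) × E₂ => (G.A w.1.1 ^ n) (G.ι w.1.1 w.2) :=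
  ((A_ct h n).comp (by fun_prop)).clm_apply ((h.ic.comp (by fun_prop)).clm_apply continuous_snd)

theorem B_ct (n : ℕ) : Continuous fun w : (X × ℝ) × E₂ => B G n w.1.1 w.1.2 w.2 := by
  have c : Continuous fun w : (X × ℝ) × E₂ => cl w.1.2 := cl_ct.comp (by fun_prop)
  have i : Continuous fun w : (X × ℝ) × E₂ => G.ι' w.1.1 := h.ic'.comp (by fun_prop)
  exact ((continuous_const.sub c).smul (i.clm_apply (y_ct h n))).add
    ((c.mul continuous_const).smul (i.clm_apply (y_ct h 0)))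

theorem d_ct (T T' : ℕ) (η : ℝ) :
    Continuous fun w : (X × ℝ) × E₂ => (1 - cl w.1.2) * χ η (G.q₂ T T' w) := by
  have q : Continuous (G.q₂ T T') := continuous_const.mul
    (((h.Hc.comp (by fun_prop)).clm_apply (y_ct h _)).inner (y_ct h _))
  exact (continuous_const.sub (cl_ct.comp (by fun_prop))).mul
    (cl_ct.comp (((continuous_const.mul q).div_const _).sub continuous_const))

end

end H2k

open H2k

theorem h2 : H2 := by
  intro X E₁ E₂ _ _ _ _ _ _ _ _ _ G c κ R₀ M h T T' η R₁ k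
  have en : T' + 1 + T = T' + T + 1 := by ring
  have hh : ∀ w, (G.rd T T' η).h₂ w = (1 - (1 - cl w.1.2) * χ η (G.q₂ T T' w))⁻¹ •
      B G (T' + 1 + T) w.1.1 w.1.2 w.2 := fun _ => rfl
  have hO : ∀ w, w ∈ (G.rd T T' η).O₂ ↔ (1 - cl w.1.2) * χ η (G.q₂ T T' w) < 1 := fun _ => Iff.rfl
  have hp : ∀ x z, (G.rd T T' η).p₂ x z = G.ι' x (G.ι x z) := fun _ _ => rfl
  have d0 : ∀ w : (X × ℝ) × E₂, 0 ≤ (1 - cl w.1.2) * χ η (G.q₂ T T' w) := fun w =>
    mul_nonneg (sub_nonneg.2 (cl1 _)) (cl0 _)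
  have d1 : ∀ w : (X × ℝ) × E₂, (1 - cl w.1.2) * χ η (G.q₂ T T' w) ≤ 1 := fun w =>
    mul_le_one₀ (by linarith [cl0 w.1.2]) (cl0 _) (cl1 _)
  have k0 : 0 < G.κ' κ := lt_min h.hκ (lt_min one_pos (lt_min h.ha (sub_pos.2 h.hμ)))
  have lo : ∀ w : (X × ℝ) × E₂, (1 + G.κ' κ) * ‖G.ι w.1.1 w.2‖ ≤ ‖B G (T' + 1 + T) w.1.1 w.1.2 w.2‖ :=
    fun w => en ▸ B_lo h _ _ _ _
  have ex : ∀ w ∈ (G.rd T T' η).O₂, (1 + G.κ' κ) * ‖G.ι w.1.1 w.2‖ ≤ ‖(G.rd T T' η).h₂ w‖ :=
    fun w hw => by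
    have p := sub_pos.2 ((hO w).1 hw)
    rw [hh, norm_smul, Real.norm_of_nonneg (inv_pos.2 p).le]
    exact (lo w).trans (le_mul_of_one_le_left (norm_nonneg _)
      ((one_le_inv₀ p).2 (by linarith [d0 w])))
  have pp : ∀ w, G.ι' w.1.1 (G.ι w.1.1 ((G.rd T T' η).h₂ w)) = (G.rd T T' η).h₂ w := fun w => by
    simp only [hh, B_ap, map_smul, map_add, iii' h]
  refine ⟨isOpen_lt (d_ct h T T' η) continuous_const, ?_, fun x s z => ⟨?_, ?_, pp ((x, s), z)⟩,
    fun R => ?_, fun w hw _ => ?_, fun x s z hs => ?_, fun x s z hs => ?_, fun x s n y hy e => ?_, ?_⟩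
  · exact ((continuous_const.sub (d_ct h T T' η)).continuousOn.inv₀ fun w hw =>
      (sub_pos.2 ((hO w).1 hw)).ne').smul (B_ct h _).continuousOn
  · simp only [hO, hp, Rg.q₂, h.iii]
  · simp only [hh, hp, Rg.q₂, B_ap, h.iii]
  · have e : {w ∈ (G.rd T T' η).O₂ | |w.1.2| ≤ R ∧ ‖(G.rd T T' η).h₂ w‖ ≤ R ∧ ‖w.2‖ ≤ R} =
        (univ ×ˢ Metric.closedBall 0 R) ×ˢ Metric.closedBall 0 R ∩
          {w | ‖B G (T' + 1 + T) w.1.1 w.1.2 w.2‖ ≤
            R * (1 - (1 - cl w.1.2) * χ η (G.q₂ T T' w))} := by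
      have i : ∀ w ∈ (G.rd T T' η).O₂, ‖(G.rd T T' η).h₂ w‖ ≤ R ↔ ‖B G (T' + 1 + T) w.1.1 w.1.2 w.2‖ ≤
          R * (1 - (1 - cl w.1.2) * χ η (G.q₂ T T' w)) := fun w hw => by
        have p := sub_pos.2 ((hO w).1 hw)
        rw [hh, norm_smul, Real.norm_of_nonneg (inv_pos.2 p).le, inv_mul_le_iff₀ p, mul_comm]
      ext w
      simp only [mem_inter_iff, mem_prod, mem_univ, true_and, mem_closedBall_zero_iff, mem_ofPred_eq,
        Real.norm_eq_abs]
      refine ⟨fun a => ⟨⟨a.2.1, a.2.2.2⟩, (i w a.1).1 a.2.2.1⟩, fun a => ?_⟩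
      have o : w ∈ (G.rd T T' η).O₂ := (hO w).2 ((d1 w).lt_of_ne fun z => by
        have b := (lo w).trans a.2
        rw [z, sub_self, mul_zero] at b
        have : G.ι w.1.1 w.2 = 0 := norm_le_zero_iff.1 (by nlinarith [norm_nonneg (G.ι w.1.1 w.2)])
        rw [chi_z k.η0 (by simp only [Rg.q₂, Rg.q, this, map_zero, inner_zero_left]; linarith [k.η0]),
          mul_zero] at z
        exact zero_ne_one z)
      exact ⟨o, a.1.1, (i w o).2 a.2, a.1.2⟩
    rw [e]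
    exact ((isCompact_univ.prod (isCompact_closedBall _ _)).prod
      (isCompact_closedBall _ _)).inter_right (isClosed_le (B_ct h _).norm
        (continuous_const.mul (continuous_const.sub (d_ct h T T' η))))
  · rw [hp, n_p h]; exact ex w hw
  · have hr := h.hr
    have a : ((x, s), z) ∈ (G.rd T T' η).O₂ ↔ -η < G.q x ((G.A x ^ (T' + 1 + T)) (G.ι x z)) := by
      rw [hO, cl_z hs, sub_zero, one_mul, chi_lt k.η0]; rfl
    have b : (x, (G.rd T T' η).u (x, z)) ∈ (G.rd T T' η).Ov ↔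
      -η < G.g (x, G.F T (x, (G.rd T T' η).u (x, z))) := Iff.rfl
    have v : (G.rd T T' η).v (x, (G.rd T T' η).u (x, z)) =
      th η 1 (G.g (x, G.F T (x, (G.rd T T' η).u (x, z)))) •
        G.ι' x (G.F T (x, (G.rd T T' η).u (x, z))) := rfl
    rw [a, b, v]
    rcases le_total ‖G.ι x z‖ G.r with l | l
    · have m : G.mx (G.ι x z) = 1 := max_eq_left ((div_le_one hr).2 l)
      have F : G.F T (x, (G.rd T T' η).u (x, z)) = G.fi (T' + 1 + T) (x, G.ι x z) := by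
        change G.fi T (x, G.f (x, G.S x (G.mx (G.ι x z))
          (G.fi T' (x, (G.mx (G.ι x z))⁻¹ • G.ι x z)))) = _
        rw [m, Rg.S, sub_self, zero_smul, add_zero, inv_one, one_smul, ← fi_s h T' (x, G.ι x z),
          add_comm _ T]
        exact (Function.iterate_add_apply _ _ _ _).symm
      rw [F]
      rcases orb h k.ηa x z l (T' + 1 + T) with ⟨e, n⟩ | ⟨p, q⟩
      · rw [e, (h.ln x _ n).2.1]
        refine ⟨Iff.rfl, fun _ => ?_⟩
        rw [hh, B_ap, cl_z hs, sub_zero, one_smul, zero_mul, zero_smul, add_zero]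
        rfl
      · exact ⟨iff_of_false q.not_gt p.not_gt, fun o => absurd o p.not_gt⟩
    · have m : G.mx (G.ι x z) = ‖G.ι x z‖ / G.r := max_eq_right ((one_le_div hr).2 l)
      have m1 : 1 ≤ G.mx (G.ι x z) := le_max_left _ _
      have n0 : ‖(G.mx (G.ι x z))⁻¹ • G.ι x z‖ = G.r := by
        have := hr.trans_le l
        rw [norm_smul, m, inv_div, Real.norm_of_nonneg (by positivity)]
        field_simp
      obtain ⟨d, gq, -⟩ := h.ln x ((G.mx (G.ι x z))⁻¹ • G.ι x z) (by linarith)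
      have g0 := q_far h k.ηa x ((G.mx (G.ι x z))⁻¹ • z) (by rw [map_smul, n0])
      rw [map_smul] at g0
      have es := k.es _ d (gq.le.trans (g0.trans (by linarith [k.η0])))
      have pu : R₁ ≤ ‖G.p₁ x ((G.rd T T' η).u (x, z))‖ := by
        change R₁ ≤ ‖G.p₁ x (G.S x (G.mx (G.ι x z))
          (G.fi T' (x, (G.mx (G.ι x z))⁻¹ • G.ι x z)))‖
        rw [Rg.S, map_add, map_smul, h.pi, sub_smul, one_smul, add_sub_cancel, norm_smul,
          Real.norm_of_nonneg (zero_le_one.trans m1)]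
        exact es.trans (le_mul_of_one_le_left (norm_nonneg _) m1)
      obtain ⟨o, e⟩ := h.en x 1 ((G.rd T T' η).u (x, z)) le_rfl
      have x1 := h.hp.ex _ o (k.R0.trans pu)
      rw [e] at x1
      have fd := h.fD (x, (G.rd T T' η).u (x, z))
      have p : G.g (x, G.F T (x, (G.rd T T' η).u (x, z))) ≤ -η := (g_fi h T fd).2.trans
        (k.rg _ fd (pu.trans (le_trans (le_mul_of_one_le_left (norm_nonneg _)
          (by linarith [h.hκ])) x1)))
      exact ⟨iff_of_false ((q_pow h x _ _).trans (q_far h k.ηa x z l)).not_gt p.not_gt,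
        fun o => absurd o p.not_gt⟩
  · refine ⟨(hO _).2 (by rw [cl_o hs, sub_self, zero_mul]; exact one_pos), ?_⟩
    rw [hh, B_ap, cl_o hs, sub_self, zero_mul, sub_zero, inv_one, one_smul, zero_smul, zero_add,
      one_mul]
    rfl
  · have a : ∀ i, (1 + G.κ' κ) * ‖y (i - 1)‖ ≤ ‖y i‖ := fun i => by
      have b := ex _ (hy (i - 1))
      rw [← e i, ← n_p h] at b
      rwa [e (i - 1), pp ((x, s), y (i - 1 - 1)), ← e (i - 1)] at b
    have b := Finset.sum_le_sum fun i (_ : i ∈ Finset.univ) => a i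
    rw [← Finset.mul_sum, show ∑ i, ‖y (i - 1)‖ = ∑ i, ‖y i‖ from
      (Equiv.subRight (1 : Ix n)).sum_comp fun i => ‖y i‖] at b
    have z : ∑ i, ‖y i‖ = 0 := le_antisymm (by nlinarith)
      (Finset.sum_nonneg fun _ _ => norm_nonneg _)
    exact funext fun i => norm_eq_zero.1
      ((Finset.sum_eq_zero_iff_of_nonneg fun _ _ => norm_nonneg _).1 z i (Finset.mem_univ _))
  · have η0 := k.η0
    refine ⟨min 1 η / (3 / 2) ^ (T' + 1 + T), by positivity, fun x s =>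
      ⟨B G (T' + 1 + T) x s, nn_sym (B_sym h _ x s), fun y hy => ?_⟩⟩
    have a : ‖(G.A x ^ (T' + 1 + T)) (G.ι x y)‖ ≤ min 1 η := by
      rw [lt_div_iff₀' (by positivity)] at hy
      exact (pow_hi h x _ _).trans ((mul_le_mul_of_nonneg_left (n_i h x y) (by positivity)).trans hy.le)
    have b : χ η (G.q₂ T T' ((x, s), y)) = 0 := chi_z η0 (le_trans (by
      have := mul_le_mul (a.trans (min_le_left _ _)) (a.trans (min_le_right _ _)) (norm_nonneg _)
        zero_le_one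
      nlinarith) (q_lo h x _))
    refine ⟨(hO _).2 (by rw [b, mul_zero]; exact one_pos), ?_⟩
    rw [hh, b, mul_zero, sub_zero, inv_one, one_smul]

end Crest.Agent.N218.Rd

end
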